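import Vale.Agent.P067.FinalDefs

/-!
# P067, second draw: one more definition
-/

set_option autoImplicit false

open Finset

namespace Vale.Agent.N067

open Vale.Agent.P067

attribute [local instance] Classical.propDecidable

/-- The largest number of `d`-faces of `X` containing a single `(d - 1)`-face. -/
noncomputable def ridgeDegree {V : Type} [Fintype V] (X : AbstractSimplicialComplex V) (d : ℕ) :
    ℕ :=
  univ.sup fun s : Face X (d - 1) => ((univ : Finset (Face X d)).filter fun t => s.1 ⊆ t.1).card

end Vale.Agent.N067
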