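import Vale.Agent.N067.Core
import Vale.Agent.N067.Defs

/-!
# P067, second draw: what a bounded-degree coboundary expander cannot be

If the coboundaries of top degree are the image of a projection with small columns, the cofilling
inequalities produce, degree by degree, a local contraction of the cochain complex, which cannot
exist on a large complex.
-/

set_option autoImplicit false

open Finset

namespace Vale.Agent.N067

open Vale.Agent.P067 Vale.Agent.P067.H610

attribute [local instance] Classical.propDecidable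

variable {V : Type} [Fintype V]

/-- The faces of `X` together with the empty set. -/
def KX (X : AbstractSimplicialComplex V) : Set (Finset V) := {s | s ∈ X ∨ s = ∅}

omit [Fintype V] in
theorem down_KX (X : AbstractSimplicialComplex V) : DownClosed (KX X) := by
  rintro s (hs | rfl) t ht
  · rcases t.eq_empty_or_nonempty with h | h
    · exact Or.inr h
    · exact Or.inl (face_mono hs ht h)
  · exact Or.inr (subset_empty.1 ht)

omit [Fintype V] in
theorem mem_of_KX {X : AbstractSimplicialComplex V} {s : Finset V} (h : s ∈ KX X)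
    (hs : s.Nonempty) : s ∈ X := h.resolve_right hs.ne_empty

theorem cnt_eq (X : AbstractSimplicialComplex V) {q : ℕ} (hq : 1 ≤ q) (f : Finset V → ZMod 2) :
    cnt X q f = cn (KX X) q f := by
  unfold cnt cn
  congr 1
  ext s
  simp only [mem_filter, mem_univ, true_and]
  exact ⟨fun h => ⟨Or.inl h.1, h.2⟩, fun h => ⟨mem_of_KX h.1 (card_pos.1 (by omega)), h.2⟩⟩

theorem cof_iff (X : AbstractSimplicialComplex V) (d M : ℕ) :
    Cof X d M ↔ ∀ q, 1 ≤ q → q ≤ d → Exp (KX X) q M := by
  refine forall_congr' fun q => forall_congr' fun hq => forall_congr' fun _ =>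
    forall_congr' fun f => exists_congr fun e => ?_
  rw [cnt_eq X hq, cnt_eq X (by omega)]

theorem bdd_of_degree {X : AbstractSimplicialComplex V} {d D : ℕ} (hP : IsPure X d)
    (hD : degree X d ≤ D) : Bdd (KX X) (D * (d + 1)) := by
  intro v
  have h0 : ((univ : Finset (Face X d)).filter fun t => v ∈ t.1).card ≤ degree X d := by
    unfold degree
    exact le_sup (f := fun v : V => ((univ : Finset (Face X d)).filter fun t => v ∈ t.1).card)
      (mem_univ v)
  refine ⟨((univ : Finset (Face X d)).filter fun t => v ∈ t.1).biUnion fun t => t.1, ?_, ?_⟩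
  · exact (card_biUnion_le_card_mul _ _ (d + 1) fun t _ => t.2.2.le).trans
      (Nat.mul_le_mul_right _ (h0.trans hD))
  · intro s hs hv x hx
    obtain ⟨t, ht, hc, hst⟩ := hP s (mem_of_KX hs ⟨v, hv⟩)
    exact mem_biUnion.2 ⟨⟨t, ht, hc⟩, mem_filter.2 ⟨mem_univ _, hst hv⟩, hst hx⟩

theorem degree_of_bdd {X : AbstractSimplicialComplex V} {L : ℕ} (h : Bdd (KX X) L) (d : ℕ) :
    degree X d ≤ 2 ^ L := by
  unfold degree
  refine Finset.sup_le fun v _ => ?_
  obtain ⟨T, h1, h2⟩ := h v
  rw [← card_image_of_injective _ Subtype.val_injective]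
  refine le_trans (card_le_card (t := T.powerset) fun s hs => ?_) ?_
  · obtain ⟨t, ht, rfl⟩ := mem_image.1 hs
    exact mem_powerset.2 (h2 _ (Or.inl t.2.1) (mem_filter.1 ht).2)
  · rw [card_powerset]
    exact Nat.pow_le_pow_right (by norm_num) h1

theorem eq_of_cnt_zero {X : AbstractSimplicialComplex V} {q : ℕ} {f : Finset V → ZMod 2}
    (h : cnt X q f = 0) {s : Finset V} (hs : s ∈ X) (hc : s.card = q) : f s = 0 := by
  by_contra hne
  rw [cnt, card_eq_zero, filter_eq_empty_iff] at h
  exact h (mem_univ s) ⟨hs, hc, hne⟩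

theorem cnt_zero {X : AbstractSimplicialComplex V} {q : ℕ} {f : Finset V → ZMod 2}
    (h : ∀ s ∈ X, s.card = q → f s = 0) : cnt X q f = 0 := by
  rw [cnt, card_eq_zero, filter_eq_empty_iff]
  rintro s - ⟨h1, h2, h3⟩
  exact h3 (h s h1 h2)

theorem z2_add {a b : ZMod 2} (h : a + b = 0) : a = b := by
  revert a b
  decide

theorem z2_self (a : ZMod 2) : a + a = 0 := by
  revert a
  decide

omit [Fintype V] in
theorem cb_singleton (e : Finset V → ZMod 2) (v : V) : cb e {v} = e ∅ := by
  unfold cb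
  rw [sum_singleton]
  congr 1
  simp

theorem connected_of_cof {X : AbstractSimplicialComplex V} {d M : ℕ} (hd : 1 ≤ d) [Nonempty V]
    (h : Cof X d M) : (skel X).Connected := by
  refine ⟨fun u v => ?_⟩
  obtain ⟨e, he⟩ := h 1 le_rfl hd fun s => if ∃ x ∈ s, (skel X).Reachable u x then 1 else 0
  rw [cnt_zero (q := 1 + 1), mul_zero, Nat.le_zero] at he
  · have h1 := z2_add (eq_of_cnt_zero he (X.singleton_mem u) (card_singleton u))
    have h2 := z2_add (eq_of_cnt_zero he (X.singleton_mem v) (card_singleton v))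
    rw [cb_singleton] at h1 h2
    rw [if_pos ⟨u, mem_singleton_self u, SimpleGraph.Reachable.refl u⟩] at h1
    by_contra hr
    rw [if_neg (by simpa using hr), ← h1] at h2
    exact zero_ne_one h2
  · intro s hs hc
    obtain ⟨x, y, hxy, rfl⟩ := card_eq_two.1 hc
    have hadj : (skel X).Adj x y := ⟨hxy, hs⟩
    have e1 : ({x, y} : Finset V).erase x = {y} := by
      rw [erase_insert (by simpa using hxy)]
    have e2 : ({x, y} : Finset V).erase y = {x} := by
      rw [pair_comm, erase_insert (by simpa using hxy.symm)]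
    unfold cb
    rw [sum_pair hxy, e1, e2]
    have h3 : (∃ z ∈ ({y} : Finset V), (skel X).Reachable u z) ↔
        ∃ z ∈ ({x} : Finset V), (skel X).Reachable u z := by
      simp only [mem_singleton, exists_eq_left]
      exact ⟨fun h => h.trans hadj.symm.reachable, fun h => h.trans hadj.reachable⟩
    beta_reduce
    rw [if_congr h3 rfl rfl]
    exact z2_self _

/-- The indicator of one set. -/
noncomputable def ind (η : Finset V) (s : Finset V) : ZMod 2 := if s = η then 1 else 0

/-- The faces of size `q`. -/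
noncomputable def FF (X : AbstractSimplicialComplex V) (q : ℕ) : Finset (Finset V) :=
  univ.filter fun s => s ∈ X ∧ s.card = q

theorem mem_FF {X : AbstractSimplicialComplex V} {q : ℕ} {s : Finset V} :
    s ∈ FF X q ↔ s ∈ X ∧ s.card = q := by simp [FF]

omit [Fintype V] in
theorem cb_cb (g : Finset V → ZMod 2) (t : Finset V) : cb (cb g) t = 0 := by
  rw [← pr_single (cb (cb g)) t, ← pr_bd, ← pr_bd, bd_bd, map_zero]

theorem erase_mem_FF {X : AbstractSimplicialComplex V} {q : ℕ} (hq : 1 ≤ q) {σ : Finset V}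
    (hσ : σ ∈ X) (hc : σ.card = q + 1) {v : V} (hv : v ∈ σ) : σ.erase v ∈ FF X q := by
  have h1 : (σ.erase v).card = q := by rw [card_erase_of_mem hv]; omega
  exact mem_FF.2 ⟨face_mono hσ (erase_subset _ _) (card_pos.1 (by omega)), h1⟩

theorem sum_cb_ind {X : AbstractSimplicialComplex V} {q : ℕ} (hq : 1 ≤ q)
    (G : Finset V → ZMod 2) {σ : Finset V} (hσ : σ ∈ X) (hc : σ.card = q + 1) :
    ∑ τ ∈ FF X q, G τ * cb (ind τ) σ = cb G σ := by
  unfold cb
  simp only [mul_sum]
  rw [sum_comm]
  refine sum_congr rfl fun v hv => ?_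
  rw [sum_eq_single_of_mem _ (erase_mem_FF hq hσ hc hv)]
  · rw [ind, if_pos rfl, mul_one]
  · intro τ _ hne
    rw [ind, if_neg hne.symm, mul_zero]

omit [Fintype V] in
theorem subset_of_cb_ind {τ σ : Finset V} (h : cb (ind τ) σ ≠ 0) : τ ⊆ σ := by
  obtain ⟨v, _, h1⟩ := exists_ne_zero_of_sum_ne_zero h
  have : σ.erase v = τ := by
    by_contra hne
    exact h1 (if_neg hne)
  rw [← this]
  exact erase_subset _ _

omit [Fintype V] in
theorem cb_ind_of_subset {τ σ : Finset V} (h : τ ⊆ σ) (hc : σ.card = τ.card + 1) :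
    cb (ind τ) σ = 1 := by
  obtain ⟨v, hv, rfl⟩ := (exists_eq_insert_iff (s := τ) (t := σ)).2 ⟨h, hc.symm⟩
  unfold cb
  rw [sum_insert hv, erase_insert hv, ind, if_pos rfl, sum_eq_zero, add_zero]
  intro w hw
  refine if_neg fun e => ?_
  rw [← e] at hw
  exact notMem_erase _ _ hw

omit [Fintype V] in
theorem cb_congr {X : AbstractSimplicialComplex V} [Fintype V] {q : ℕ} (hq : 1 ≤ q)
    {f g : Finset V → ZMod 2} (h : ∀ s ∈ X, s.card = q → f s = g s) {σ : Finset V} (hσ : σ ∈ X)
    (hc : σ.card = q + 1) : cb f σ = cb g σ :=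
  sum_congr rfl fun _ hv => h _ (mem_FF.1 (erase_mem_FF hq hσ hc hv)).1
    (mem_FF.1 (erase_mem_FF hq hσ hc hv)).2

/-- A projection onto the coboundaries of size `q` whose columns have at most `M` entries. -/
def PP (X : AbstractSimplicialComplex V) (q M : ℕ) : Prop :=
  ∃ p : Finset V → Finset V → ZMod 2,
    (∀ σ ∈ X, σ.card = q → cnt X q (p σ) ≤ M ∧ ∃ e, ∀ t ∈ X, t.card = q → p σ t = cb e t) ∧
    ∀ η : Finset V, η.card + 1 = q → η ∈ KX X → ∀ t ∈ X, t.card = q →
      ∑ σ ∈ FF X q, cb (ind η) σ * p σ t = cb (ind η) t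

theorem PP.mono {X : AbstractSimplicialComplex V} {q M M' : ℕ} (h : PP X q M) (hM : M ≤ M') :
    PP X q M' := by
  obtain ⟨p, h1, h2⟩ := h
  exact ⟨p, fun σ hσ hc => ⟨(h1 σ hσ hc).1.trans hM, (h1 σ hσ hc).2⟩, h2⟩

theorem cnt_congr {X : AbstractSimplicialComplex V} {q : ℕ} {f g : Finset V → ZMod 2}
    (h : ∀ s ∈ X, s.card = q → f s = g s) : cnt X q f = cnt X q g := by
  unfold cnt
  congr 1
  ext s
  simp only [mem_filter, mem_univ, true_and]
  exact ⟨fun h1 => ⟨h1.1, h1.2.1, h s h1.1 h1.2.1 ▸ h1.2.2⟩,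
    fun h1 => ⟨h1.1, h1.2.1, (h s h1.1 h1.2.1).symm ▸ h1.2.2⟩⟩

theorem PP.step {X : AbstractSimplicialComplex V} {d K L q M : ℕ} (hX : Cof X d K)
    (hL : Bdd (KX X) L) (hq : 1 ≤ q) (hqd : q ≤ d) (h : PP X (q + 1) M) :
    PP X q (1 + 2 ^ L * (K * M)) := by
  obtain ⟨p, h1, h2⟩ := h
  have key : ∀ σ : Finset V, ∃ s : Finset V → ZMod 2, σ ∈ X → σ.card = q + 1 →
      cnt X q s ≤ K * M ∧ ∀ t ∈ X, t.card = q + 1 → cb s t = p σ t := by
    intro σ
    by_cases hσ : σ ∈ X ∧ σ.card = q + 1
    · obtain ⟨h3, e, he⟩ := h1 σ hσ.1 hσ.2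
      obtain ⟨e', he'⟩ := hX q hq hqd e
      refine ⟨fun s => e s + cb e' s, fun _ _ => ⟨he'.trans (Nat.mul_le_mul_left _ ?_), ?_⟩⟩
      · rw [← cnt_congr he]
        exact h3
      · intro t ht hc
        rw [he t ht hc, cb, sum_add_distrib]
        change cb e t + cb (cb e') t = _
        rw [cb_cb, add_zero]
    · exact ⟨0, fun h3 h4 => absurd ⟨h3, h4⟩ hσ⟩
  choose s hs using key
  refine ⟨fun τ t => ind τ t + ∑ σ ∈ FF X (q + 1), cb (ind τ) σ * s σ t, ?_, ?_⟩
  · intro τ hτ hc
    constructor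
    · obtain ⟨u, hu⟩ := face_nonempty hτ
      obtain ⟨T, hT1, hT2⟩ := hL u
      unfold cnt
      refine le_trans (card_le_card (t := insert τ (((FF X (q + 1)).filter (· ⊆ T)).biUnion
        fun σ => univ.filter fun t => t ∈ X ∧ t.card = q ∧ s σ t ≠ 0)) fun t ht => ?_) ?_
      · rw [mem_filter] at ht
        by_cases htτ : t = τ
        · rw [htτ]
          exact mem_insert_self _ _
        · have h3 := ht.2.2.2
          simp only [ind, if_neg htτ, zero_add] at h3
          obtain ⟨σ, hσ, h4⟩ := exists_ne_zero_of_sum_ne_zero h3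
          refine mem_insert_of_mem (mem_biUnion.2 ⟨σ, mem_filter.2 ⟨hσ, ?_⟩,
            mem_filter.2 ⟨mem_univ _, ht.2.1, ht.2.2.1, right_ne_zero_of_mul h4⟩⟩)
          exact hT2 σ (Or.inl (mem_FF.1 hσ).1) (subset_of_cb_ind (left_ne_zero_of_mul h4) hu)
      · refine (card_insert_le _ _).trans ?_
        rw [add_comm]
        refine Nat.add_le_add_left ((card_biUnion_le_card_mul _ _ (K * M) fun σ hσ => ?_).trans
          (Nat.mul_le_mul_right _ ?_)) 1
        · have h3 := mem_FF.1 (mem_filter.1 hσ).1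
          exact (hs σ h3.1 h3.2).1
        · refine le_trans (card_le_card (t := T.powerset) fun σ hσ =>
            mem_powerset.2 (mem_filter.1 hσ).2) ?_
          rw [card_powerset]
          exact Nat.pow_le_pow_right (by norm_num) hT1
    · obtain ⟨e, he⟩ := hX q hq hqd
        fun t => ind τ t + ∑ σ ∈ FF X (q + 1), cb (ind τ) σ * s σ t
      rw [cnt_zero (q := q + 1), mul_zero, Nat.le_zero] at he
      · exact ⟨e, fun t ht htc => z2_add (eq_of_cnt_zero he ht htc)⟩
      · intro t ht htc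
        have h3 := h2 τ (by omega) (Or.inl hτ) t ht htc
        have h4 : ∑ v ∈ t, ∑ σ ∈ FF X (q + 1), cb (ind τ) σ * s σ (t.erase v) =
            ∑ σ ∈ FF X (q + 1), cb (ind τ) σ * p σ t := by
          rw [sum_comm]
          refine sum_congr rfl fun σ hσ => ?_
          rw [← mul_sum, ← (hs σ (mem_FF.1 hσ).1 (mem_FF.1 hσ).2).2 t ht htc]
          rfl
        rw [cb, sum_add_distrib, h4, h3]
        exact z2_self _
  · intro η _ _ t ht htc
    simp only [mul_add, sum_add_distrib]
    have h3 : ∑ τ ∈ FF X q, cb (ind η) τ * ind τ t = cb (ind η) t := by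
      rw [sum_eq_single_of_mem t (mem_FF.2 ⟨ht, htc⟩)]
      · rw [ind, if_pos rfl, mul_one]
      · intro τ _ hne
        rw [ind, if_neg hne.symm, mul_zero]
    have h4 : ∑ τ ∈ FF X q, cb (ind η) τ * ∑ σ ∈ FF X (q + 1), cb (ind τ) σ * s σ t = 0 := by
      simp only [mul_sum]
      rw [sum_comm]
      refine sum_eq_zero fun σ hσ => ?_
      simp only [← mul_assoc]
      rw [← sum_mul, sum_cb_ind hq _ (mem_FF.1 hσ).1 (mem_FF.1 hσ).2, cb_cb, zero_mul]
    rw [h3, h4, add_zero]

theorem PP.final {X : AbstractSimplicialComplex V} {M : ℕ} (h : PP X 1 M) :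
    Fintype.card V ≤ M := by
  obtain ⟨p, h1, h2⟩ := h
  by_contra hlt
  have hpos : 0 < Fintype.card V := by omega
  obtain ⟨v⟩ := Fintype.card_pos_iff.1 hpos
  have h3 := h2 ∅ rfl (Or.inr rfl) {v} (X.singleton_mem v) (card_singleton v)
  rw [cb_singleton, ind, if_pos rfl, sum_eq_zero] at h3
  · exact zero_ne_one h3
  · intro σ hσ
    obtain ⟨h4, e, he⟩ := h1 σ (mem_FF.1 hσ).1 (mem_FF.1 hσ).2
    have h5 : p σ {v} = 0 := by
      by_contra hne
      apply hlt
      refine le_trans ?_ h4
      rw [← card_univ, cnt]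
      refine card_le_card_of_injOn (fun x => ({x} : Finset V)) (fun x _ => ?_)
        fun x _ y _ hxy => singleton_injective hxy
      rw [mem_coe, mem_filter]
      refine ⟨mem_univ _, X.singleton_mem x, card_singleton x, ?_⟩
      rw [he _ (X.singleton_mem x) (card_singleton x), cb_singleton]
      rwa [he _ (X.singleton_mem v) (card_singleton v), cb_singleton] at hne
    rw [h5, mul_zero]

theorem PP.card_le {X : AbstractSimplicialComplex V} {d K L M : ℕ} (hX : Cof X d K)
    (hL : Bdd (KX X) L) (hM : 1 ≤ M) (h : PP X (d + 1) M) :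
    Fintype.card V ≤ (1 + 2 ^ L * K) ^ d * M := by
  have key : ∀ j, j ≤ d → PP X (d + 1 - j) ((1 + 2 ^ L * K) ^ j * M) := by
    intro j
    induction j with
    | zero => intro _; simpa using h
    | succ j ih =>
      intro hj
      have h1 := ih (by omega)
      rw [show d + 1 - j = d + 1 - (j + 1) + 1 by omega] at h1
      refine (h1.step hX hL (by omega) (by omega)).mono ?_
      have h2 : 1 ≤ (1 + 2 ^ L * K) ^ j * M := Nat.mul_pos (by positivity) hM
      calc _ ≤ (1 + 2 ^ L * K) ^ j * M + 2 ^ L * (K * ((1 + 2 ^ L * K) ^ j * M)) :=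
            Nat.add_le_add_right h2 _
        _ = _ := by ring
  have h1 := key d le_rfl
  rw [show d + 1 - d = 1 by omega] at h1
  exact h1.final

/-- The top cohomology. -/
abbrev Top (X : AbstractSimplicialComplex V) (d : ℕ) : Type :=
  (Face X d → ZMod 2) ⧸ Submodule.span (ZMod 2) (cobs X d)

theorem mem_cobs_of_span {X : AbstractSimplicialComplex V} {d : ℕ} {a : Face X d → ZMod 2}
    (ha : a ∈ Submodule.span (ZMod 2) (cobs X d)) :
    ∃ e : Finset V → ZMod 2, ∀ s : Face X d, cb e s.1 = a s := by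
  induction ha using Submodule.span_induction with
  | mem a ha => exact exists_cb X d a ha
  | zero => exact ⟨0, fun s => by simp [cb]⟩
  | add a b _ _ ha hb =>
    obtain ⟨e, he⟩ := ha
    obtain ⟨e', he'⟩ := hb
    exact ⟨fun s => e s + e' s, fun s => by rw [Pi.add_apply, ← he, ← he', cb, sum_add_distrib]; rfl⟩
  | smul c a _ ha =>
    obtain ⟨e, he⟩ := ha
    exact ⟨fun s => c * e s, fun s => by rw [Pi.smul_apply, ← he, cb, ← mul_sum]; rfl⟩

/-- A section `φ` of the quotient map on the classes of the faces, additive on the coboundaries of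
single faces, gives a projection. -/
theorem pp_of_section {X : AbstractSimplicialComplex V} {d M : ℕ}
    (φ : Top X d → Face X d → ZMod 2)
    (h1 : ∀ σ : Face X d, Submodule.Quotient.mk (φ (Submodule.Quotient.mk (Pi.single σ 1))) =
      (Submodule.Quotient.mk (Pi.single σ 1) : Top X d))
    (h2 : ∀ x, (univ.filter fun t => φ x t ≠ 0).card ≤ M)
    (h3 : ∀ η : Finset V, η.card = d → η ∈ KX X →
      ∑ σ : Face X d, cb (ind η) σ.1 • φ (Submodule.Quotient.mk (Pi.single σ 1)) = 0) :
    PP X (d + 1) (1 + M) := by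
  let r : Face X d → Face X d → ZMod 2 := fun σ =>
    Pi.single σ 1 + φ (Submodule.Quotient.mk (Pi.single σ 1))
  refine ⟨fun σ => if h : σ ∈ X ∧ σ.card = d + 1 then ext0 X d (r ⟨σ, h⟩) else 0, ?_, ?_⟩
  · intro σ hσ hc
    simp only [dif_pos (And.intro hσ hc)]
    constructor
    · rw [← card_typed X d (r ⟨σ, hσ, hc⟩) _ (ext0_face X d _)]
      refine le_trans (card_le_card (t := insert ⟨σ, hσ, hc⟩ (univ.filter fun t =>
        φ (Submodule.Quotient.mk (Pi.single ⟨σ, hσ, hc⟩ 1)) t ≠ 0)) fun t ht => ?_) ?_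
      · by_cases h : t = ⟨σ, hσ, hc⟩
        · rw [h]
          exact mem_insert_self _ _
        · refine mem_insert_of_mem (mem_filter.2 ⟨mem_univ _, ?_⟩)
          have h4 := (mem_filter.1 ht).2
          simp only [r, Pi.add_apply, Pi.single_eq_of_ne h, zero_add] at h4
          exact h4
      · refine (card_insert_le _ _).trans ?_
        rw [add_comm]
        exact Nat.add_le_add_left (h2 _) 1
    · have h4 : r ⟨σ, hσ, hc⟩ ∈ Submodule.span (ZMod 2) (cobs X d) := by
        have h5 := (Submodule.Quotient.eq _).1 (h1 ⟨σ, hσ, hc⟩).symm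
        have h6 : r ⟨σ, hσ, hc⟩ = Pi.single ⟨σ, hσ, hc⟩ 1 -
            φ (Submodule.Quotient.mk (Pi.single ⟨σ, hσ, hc⟩ 1)) := by
          funext t
          rw [Pi.sub_apply, add_eq_sub]
          rfl
        rw [h6]
        exact h5
      obtain ⟨e, he⟩ := mem_cobs_of_span h4
      exact ⟨e, fun t ht htc => (ext0_face X d _ ⟨t, ht, htc⟩).trans (he ⟨t, ht, htc⟩).symm⟩
  · intro η hη hK t ht htc
    have h4 := congrFun (h3 η (by omega) hK) ⟨t, ht, htc⟩
    rw [Finset.sum_apply] at h4
    rw [sum_subtype (FF X (d + 1)) (p := fun s => s ∈ X ∧ s.card = d + 1) (F := inferInstance)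
      (fun _ => mem_FF)]
    have h5 : ∀ σ : Face X d, cb (ind η) σ.1 * (if h : σ.1 ∈ X ∧ σ.1.card = d + 1 then
        ext0 X d (r ⟨σ.1, h⟩) else 0) t = cb (ind η) σ.1 * (Pi.single σ 1 : Face X d → ZMod 2)
          ⟨t, ht, htc⟩ + (cb (ind η) σ.1 • φ (Submodule.Quotient.mk (Pi.single σ 1)))
            ⟨t, ht, htc⟩ := by
      intro σ
      rw [dif_pos σ.2, ext0_face X d _ ⟨t, ht, htc⟩, Pi.smul_apply, smul_eq_mul, ← mul_add]
      rfl
    rw [sum_congr rfl fun σ _ => h5 σ, sum_add_distrib, h4, Pi.zero_apply, add_zero,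
      sum_eq_single_of_mem (⟨t, ht, htc⟩ : Face X d) (mem_univ _)]
    · rw [Pi.single_eq_same, mul_one]
    · intro σ _ hne
      rw [Pi.single_eq_of_ne hne.symm, mul_zero]

theorem sum_mk_eq_zero (X : AbstractSimplicialComplex V) (d : ℕ) (g : Finset V → ZMod 2) :
    ∑ σ : Face X d, cb g σ.1 • (Submodule.Quotient.mk (Pi.single σ 1) : Top X d) = 0 := by
  have h1 : (fun s : Face X d => cb g s.1) = ∑ σ : Face X d, cb g σ.1 • Pi.single σ 1 := by
    funext t
    rw [Finset.sum_apply, sum_eq_single_of_mem t (mem_univ _)]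
    · simp
    · intro σ _ hne
      rw [Pi.smul_apply, Pi.single_eq_of_ne hne.symm, smul_zero]
  have h2 : (Submodule.span (ZMod 2) (cobs X d)).mkQ (fun s : Face X d => cb g s.1) = 0 :=
    (Submodule.Quotient.mk_eq_zero _).2 (Submodule.subset_span (cb_mem X d g))
  rw [h1, map_sum] at h2
  rw [← h2]
  exact sum_congr rfl fun σ _ => by rw [map_smul]; rfl

/-- The projection along a complement spanned by faces. -/
theorem pp_betti (X : AbstractSimplicialComplex V) (d : ℕ) :
    PP X (d + 1) (1 + Module.finrank (ZMod 2) (Top X d)) := by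
  obtain ⟨κ, a, ha, hsp, hli⟩ := exists_linearIndependent' (ZMod 2)
    fun σ : Face X d => (Submodule.Quotient.mk (Pi.single σ 1) : Top X d)
  have : Finite κ := Finite.of_injective a ha
  have : Fintype κ := Fintype.ofFinite κ
  have htop : ⊤ ≤ Submodule.span (ZMod 2) (Set.range
      ((fun σ : Face X d => (Submodule.Quotient.mk (Pi.single σ 1) : Top X d)) ∘ a)) := by
    rw [hsp]
    intro x _
    obtain ⟨f, rfl⟩ := (Submodule.span (ZMod 2) (cobs X d)).mkQ_surjective x
    rw [pi_eq_sum_univ' f, map_sum]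
    refine Submodule.sum_mem _ fun σ _ => ?_
    rw [map_smul]
    exact Submodule.smul_mem _ _ (Submodule.subset_span ⟨σ, rfl⟩)
  let b := Module.Basis.mk hli htop
  let φ : Top X d →ₗ[ZMod 2] (Face X d → ZMod 2) :=
    b.constr (ZMod 2) fun i => Pi.single (a i) 1
  have hφ : (Submodule.span (ZMod 2) (cobs X d)).mkQ ∘ₗ φ = LinearMap.id := by
    refine b.ext fun i => ?_
    simp only [φ, LinearMap.comp_apply, Module.Basis.constr_basis, LinearMap.id_apply]
    simp only [b, Module.Basis.mk_apply]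
    rfl
  refine pp_of_section φ (fun σ => LinearMap.congr_fun hφ _) (fun x => ?_) fun η _ _ => ?_
  · rw [Module.finrank_eq_card_basis b, ← card_univ]
    refine le_trans (card_le_card (t := univ.image a) fun t ht => ?_) card_image_le
    have h1 := (mem_filter.1 ht).2
    simp only [φ, Module.Basis.constr_apply_fintype, Finset.sum_apply] at h1
    obtain ⟨i, _, hi⟩ := exists_ne_zero_of_sum_ne_zero h1
    refine mem_image.2 ⟨i, mem_univ _, ?_⟩
    by_contra hne
    apply hi
    rw [Pi.smul_apply, Pi.single_eq_of_ne (Ne.symm hne), smul_zero]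
  · have h1 := congrArg φ (sum_mk_eq_zero X d (ind η))
    rw [map_sum, map_zero] at h1
    rw [← h1]
    exact sum_congr rfl fun σ _ => (map_smul φ _ _).symm

theorem ridge_le {X : AbstractSimplicialComplex V} {d k : ℕ} (hd : 1 ≤ d) :
    ridgeDegree X d ≤ k ↔ ∀ s ∈ X, s.card = d →
      ((univ : Finset (Face X d)).filter fun t => s ⊆ t.1).card ≤ k := by
  unfold ridgeDegree
  rw [Finset.sup_le_iff]
  exact ⟨fun h s hs hc => h ⟨s, hs, by omega⟩ (mem_univ _),
    fun h s _ => h s.1 s.2.1 (by have := s.2.2; omega)⟩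

/-- The projection for pseudomanifolds. -/
theorem pp_two {X : AbstractSimplicialComplex V} {d : ℕ} (hd : 1 ≤ d) (h : ridgeDegree X d ≤ 2) :
    PP X (d + 1) (1 + 1) := by
  let φ : Top X d → Face X d → ZMod 2 := fun x =>
    if h : x ≠ 0 ∧ ∃ σ : Face X d, Submodule.Quotient.mk (Pi.single σ 1) = x then
      Pi.single h.2.choose 1 else 0
  have h0 : φ 0 = 0 := dif_neg fun h => h.1 rfl
  refine pp_of_section φ (fun σ => ?_) (fun x => ?_) fun η hc hη => ?_
  · by_cases hx : (Submodule.Quotient.mk (Pi.single σ 1) : Top X d) = 0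
    · rw [hx, h0]
      rfl
    · have h1 : (Submodule.Quotient.mk (Pi.single σ 1) : Top X d) ≠ 0 ∧ ∃ σ' : Face X d,
          Submodule.Quotient.mk (Pi.single σ' 1) =
            (Submodule.Quotient.mk (Pi.single σ 1) : Top X d) := ⟨hx, σ, rfl⟩
      simp only [φ, dif_pos h1]
      exact h1.2.choose_spec
  · by_cases h1 : x ≠ 0 ∧ ∃ σ : Face X d, Submodule.Quotient.mk (Pi.single σ 1) = x
    · simp only [φ, dif_pos h1]
      refine le_trans (card_le_card (t := {h1.2.choose}) fun t ht => ?_) (card_singleton _).le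
      by_contra hne
      exact (mem_filter.1 ht).2 (Pi.single_eq_of_ne (by simpa using hne) _)
    · simp only [φ, dif_neg h1]
      simp
  · have hX : η ∈ X := mem_of_KX hη (card_pos.1 (by omega))
    have h1 := (ridge_le hd).1 h η hX hc
    have h2 : ∀ {N : Type} [AddCommGroup N] [Module (ZMod 2) N] (g : Face X d → N),
        ∑ σ : Face X d, cb (ind η) σ.1 • g σ =
          ∑ σ ∈ (univ : Finset (Face X d)).filter fun t => η ⊆ t.1, g σ := by
      intro N _ _ g
      rw [sum_filter]
      refine sum_congr rfl fun σ _ => ?_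
      split_ifs with h3
      · rw [cb_ind_of_subset h3 (by rw [σ.2.2, hc]), one_smul]
      · have h4 : cb (ind η) σ.1 = 0 := by
          by_contra h4
          exact h3 (subset_of_cb_ind h4)
        rw [h4, zero_smul]
    have h3 := sum_mk_eq_zero X d (ind η)
    rw [h2] at h3 ⊢
    generalize ((univ : Finset (Face X d)).filter fun t => η ⊆ t.1) = S at h1 h3
    have h4 : S.card = 0 ∨ S.card = 1 ∨ S.card = 2 := by omega
    rcases h4 with h4 | h4 | h4
    · rw [card_eq_zero.1 h4, sum_empty]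
    · obtain ⟨x, rfl⟩ := card_eq_one.1 h4
      rw [sum_singleton] at h3 ⊢
      rw [h3, h0]
    · obtain ⟨x, y, hxy, rfl⟩ := card_eq_two.1 h4
      rw [sum_pair hxy] at h3 ⊢
      have h5 : (Submodule.Quotient.mk (Pi.single x 1) : Top X d) =
          Submodule.Quotient.mk (Pi.single y 1) := by
        have h6 : ∀ z : Top X d, z + z = 0 := fun z => by
          rw [← two_smul (ZMod 2) z, show (2 : ZMod 2) = 0 from rfl, zero_smul]
        rw [← h6 (Submodule.Quotient.mk (Pi.single y 1))] at h3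
        exact add_right_cancel h3
      rw [h5]
      funext t
      exact z2_self _

/-- The two negative results. -/
theorem lower (d D : ℕ) (ε : ℝ) (hε : 0 < ε) : ∃ C : ℕ,
    ∀ (V : Type) [Fintype V] (X : AbstractSimplicialComplex V), IsPure X d → degree X d ≤ D →
      IsCoboundaryExpander X d ε →
      Fintype.card V ≤ C * (1 + Module.finrank (ZMod 2) (Top X d)) ∧
      (1 ≤ d → ridgeDegree X d ≤ 2 → Fintype.card V ≤ C) := by
  obtain ⟨K, hK⟩ := exists_nat_ge ((D : ℝ) * 2 ^ (d + 1) / ε)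
  rw [div_le_iff₀ hε] at hK
  refine ⟨(1 + 2 ^ (D * (d + 1)) * K) ^ d * 2, fun V _ X hP hD hX => ?_⟩
  have h1 := cof_of_expander hP hD hX hK hε
  have h2 := bdd_of_degree hP hD
  refine ⟨((pp_betti X d).card_le h1 h2 (by omega)).trans ?_, fun hd h => ?_⟩
  · exact Nat.mul_le_mul_right _ (Nat.le_mul_of_pos_right _ (by norm_num))
  · exact (pp_two hd h).card_le h1 h2 (by omega)

end Vale.Agent.N067
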