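import Vale.Agent.N067.Cyl
import Vale.Agent.N067.Lower
import Mathlib.LinearAlgebra.Transvection.Basic

/-!
# P067, second draw: Cayley complexes of the groups `SL_n (F_p[t] / t^m)`
-/

set_option autoImplicit false

open Finset

open scoped Pointwise

namespace Vale.Agent.N067

open Vale.Agent.P067 Vale.Agent.P067.H610

attribute [local instance] Classical.propDecidable

attribute [-instance] Subtype.instDecidableEq

attribute [-instance] Submodule.decidableEq

section abstract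

variable {α G : Type} [Fintype α] [Fintype G] [Group G]

/-- From the weights of the top simplices to counting. -/
theorem exp_of_nrm {top : Finset (Finset α)} {K : Set (Finset α)}
    (hK : ∀ s, s ∈ K ↔ 0 < W top s) {D' M q : ℕ} {ε : ℝ} (hε : 0 < ε)
    (hM : (D' : ℝ) ≤ M * ε) (hD : ∀ v : α, W top {v} ≤ D')
    (h : ∀ f : Finset α → ZMod 2, ∃ e : Finset α → ZMod 2,
      ε * (nrm top q (fun τ => f τ + dd e τ) : ℝ) ≤ (nrm top (q + 1) (dd f) : ℝ)) :
    Exp K q M := by
  intro f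
  obtain ⟨e, he⟩ := h f
  refine ⟨e, ?_⟩
  have h1 : cn K q (fun τ => f τ + cb e τ) ≤ nrm top q (fun τ => f τ + dd e τ) := by
    unfold cn nrm
    rw [card_eq_sum_ones]
    refine le_trans (sum_le_sum fun s hs => ?_) (sum_le_sum_of_subset fun s hs => ?_)
    · exact (hK s).1 (mem_filter.1 hs).2.1
    · exact mem_filter.2 ⟨mem_univ _, (mem_filter.1 hs).2.2⟩
  have h2 : nrm top (q + 1) (dd f) ≤ cn K (q + 1) (cb f) * D' := by
    unfold cn nrm
    rw [← sum_filter_ne_zero, ← smul_eq_mul]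
    refine le_trans (sum_le_card_nsmul _ _ D' fun s hs => ?_) ?_
    · obtain ⟨v, hv⟩ : s.Nonempty := card_pos.1 (by
        rw [(mem_filter.1 (mem_filter.1 hs).1).2.1]; omega)
      exact (W_anti top (singleton_subset_iff.2 hv)).trans (hD v)
    · refine Nat.mul_le_mul_right _ (card_le_card fun s hs => ?_)
      exact mem_filter.2 ⟨mem_univ _, (hK s).2 (Nat.pos_of_ne_zero (mem_filter.1 hs).2),
        (mem_filter.1 (mem_filter.1 hs).1).2⟩
  have h3 : (cn K q (fun τ => f τ + cb e τ) : ℝ) ≤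
      nrm top q (fun τ => f τ + dd e τ) := by exact_mod_cast h1
  have h4 : (nrm top (q + 1) (dd f) : ℝ) ≤ cn K (q + 1) (cb f) * D' := by
    exact_mod_cast h2
  have h5 : ε * (cn K q (fun τ => f τ + cb e τ) : ℝ) ≤
      ε * (M * cn K (q + 1) (cb f)) := by
    have h6 : (0 : ℝ) ≤ cn K (q + 1) (cb f) := by positivity
    nlinarith [mul_le_mul_of_nonneg_left h3 hε.le, mul_le_mul_of_nonneg_left hM h6]
  exact_mod_cast le_of_mul_le_mul_left h5 hε

/-- The sets of at most `d + 1` elements which lie in a left coset of one of the subgroups. -/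
def cosetCx (H : Set (Subgroup G)) (hH : H.Nonempty) (d : ℕ) : AbstractSimplicialComplex G where
  faces := {s | s.Nonempty ∧ s.card ≤ d + 1 ∧ ∃ K ∈ H, ∃ g : G, ∀ x ∈ s, g⁻¹ * x ∈ K}
  isRelLowerSet_faces := by
    rintro s ⟨h1, h2, K, hK, g, h3⟩
    exact ⟨h1, fun t hts ht => ⟨ht, (card_le_card hts).trans h2, K, hK, g,
      fun x hx => h3 x (hts hx)⟩⟩
  singleton_mem v := by
    obtain ⟨K, hK⟩ := hH
    refine ⟨singleton_nonempty v, by simp, K, hK, v, fun x hx => ?_⟩
    rw [mem_singleton.1 hx, inv_mul_cancel]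
    exact K.one_mem

omit [Fintype G] in
theorem mem_cosetCx {H : Set (Subgroup G)} {hH : H.Nonempty} {d : ℕ} {s : Finset G} :
    s ∈ cosetCx H hH d ↔
      s.Nonempty ∧ s.card ≤ d + 1 ∧ ∃ K ∈ H, ∃ g : G, ∀ x ∈ s, g⁻¹ * x ∈ K := Iff.rfl

theorem card_coset (K : Subgroup G) (g : G) [DecidablePred fun x => g⁻¹ * x ∈ K] :
    (univ.filter fun x => g⁻¹ * x ∈ K).card = Nat.card K := by
  rw [← Fintype.card_subtype, ← Nat.card_eq_fintype_card]
  exact Nat.card_congr
    { toFun := fun x => ⟨g⁻¹ * x.1, x.2⟩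
      invFun := fun y => ⟨g * y.1, by simp⟩
      left_inv := fun x => by simp
      right_inv := fun y => by simp }

theorem cayley_abs [MulAction G α] {top : Finset (Finset α)} {ty : α → ℕ}
    (T : TypedTrans G top ty) {C : Finset α} (hC : C ∈ top) (hne : C.Nonempty) {d k M : ℕ}
    (hk : C.card ≤ k) (hlo : ∀ c ∈ C, d + 1 ≤ Nat.card (MulAction.stabilizer G c))
    (hhi : ∀ c ∈ C, Nat.card (MulAction.stabilizer G c) ≤ k)
    (h : ∀ q, 1 ≤ q → q ≤ d → Exp {s | 0 < W top s} q M) (H : Set (Subgroup G))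
    (hH : H.Nonempty) (hHC : ∀ K, K ∈ H ↔ ∃ c ∈ C, MulAction.stabilizer G c = K) :
    IsPure (cosetCx H hH d) d ∧ Bdd (KX (cosetCx H hH d)) (k * k) ∧
      Cof (cosetCx H hH d) d (cst2 (k * k + k + (k * k + k) * (k * k + k)) M) := by
  have : Nonempty α := ⟨hne.choose⟩
  have hstab : ∀ (c : α) (g x : G), g⁻¹ * x ∈ MulAction.stabilizer G c ↔ x • c = g • c := by
    intro c g x
    rw [MulAction.mem_stabilizer_iff, mul_smul, inv_smul_eq_iff]
  refine ⟨?_, ?_, ?_⟩
  · rintro s ⟨h1, h2, K, hK, g, h3⟩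
    obtain ⟨c, hc, rfl⟩ := (hHC K).1 hK
    obtain ⟨u, hu1, hu2, hu3⟩ := exists_subsuperset_card_eq (s := s)
      (t := univ.filter fun x => g⁻¹ * x ∈ MulAction.stabilizer G c) (n := d + 1)
      (fun x hx => mem_filter.2 ⟨mem_univ _, h3 x hx⟩) h2 (by rw [card_coset]; exact hlo c hc)
    exact ⟨u, ⟨h1.mono hu1, hu3.le, _, hK, g, fun x hx => (mem_filter.1 (hu2 hx)).2⟩, hu3, hu1⟩
  · intro v
    refine ⟨C.biUnion fun c => univ.filter fun x => v⁻¹ * x ∈ MulAction.stabilizer G c, ?_, ?_⟩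
    · refine (card_biUnion_le_card_mul _ _ k fun c hc => ?_).trans (Nat.mul_le_mul_right _ hk)
      rw [card_coset]
      exact hhi c hc
    · intro s hs hv x hx
      obtain ⟨-, -, K, hK, g, h3⟩ := mem_of_KX hs ⟨v, hv⟩
      obtain ⟨c, hc, rfl⟩ := (hHC K).1 hK
      refine mem_biUnion.2 ⟨c, hc, mem_filter.2 ⟨mem_univ _, ?_⟩⟩
      rw [hstab, (hstab c g x).1 (h3 x hx), (hstab c g v).1 (h3 v hv)]
  · rw [cof_iff]
    intro q hq hqd
    have e1 : {s | 0 < W top s} = {t : Finset α | ∃ g : G, ∀ a ∈ t, ∃ c ∈ C, g • c = a} := by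
      ext t
      simp only [Set.mem_ofPred_eq, W_pos_iff]
      constructor
      · rintro ⟨C', hC', ht⟩
        obtain ⟨g, rfl⟩ := T.trans C hC C' hC'
        exact ⟨g, fun a ha => mem_image.1 (ht ha)⟩
      · rintro ⟨g, hg⟩
        exact ⟨_, T.inv g C hC, fun a ha => mem_image.2 (hg a ha)⟩
    have h1 := h q hq hqd
    rw [e1] at h1
    refine (dowker (fun (a : α) (g : G) => ∃ c ∈ C, g • c = a) (k := k * k + k) ?_ ?_ hq
      h1).congr ?_
    · intro a
      refine ⟨C.biUnion fun c => univ.filter fun x : G => x • c = a, ?_, ?_⟩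
      · refine le_trans ((card_biUnion_le_card_mul _ _ k fun c hc => ?_).trans
          (Nat.mul_le_mul_right _ hk)) (Nat.le_add_right _ _)
        rcases (univ.filter fun x : G => x • c = a).eq_empty_or_nonempty with h2 | ⟨g, hg⟩
        · rw [h2]
          exact Nat.zero_le _
        · refine le_trans (le_of_eq ?_) (hhi c hc)
          rw [← card_coset _ g]
          congr 1
          ext x
          simp only [mem_filter, mem_univ, true_and, hstab, (mem_filter.1 hg).2]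
      · rintro g ⟨c, hc, hg⟩
        exact mem_biUnion.2 ⟨c, hc, mem_filter.2 ⟨mem_univ _, hg⟩⟩
    · intro g
      exact ⟨C.image fun c => g • c, card_image_le.trans (hk.trans (Nat.le_add_left _ _)),
        fun a ha => mem_image.2 ha⟩
    · intro s hs
      have hs0 : s.Nonempty := card_pos.1 (by omega)
      constructor
      · rintro ⟨a, ha⟩
        obtain ⟨g, hg⟩ := hs0
        obtain ⟨c, hc, e⟩ := ha g hg
        refine Or.inl ⟨⟨g, hg⟩, by omega, _, (hHC _).2 ⟨c, hc, rfl⟩, g, fun x hx => ?_⟩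
        obtain ⟨c', hc', e'⟩ := ha x hx
        have : c' = c := T.ty_inj C hC hc' hc (by
          rw [← T.ty_inv x c', ← T.ty_inv g c, e, e'])
        rw [hstab, e, ← e', this]
      · intro hX
        obtain ⟨-, -, K, hK, g, h3⟩ := mem_of_KX hX hs0
        obtain ⟨c, hc, rfl⟩ := (hHC K).1 hK
        exact ⟨g • c, fun x hx => ⟨c, hc, (hstab c g x).1 (h3 x hx)⟩⟩

end abstract

section geometry

variable {p m : ℕ} [Fact p.Prime] {ι : Type} [Fintype ι] [DecidableEq ι]

omit [Fintype ι] in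
theorem cst_single (i : ι) : cst ι p m (Pi.single i 1) = Pi.single i (1 : Rg p m) := by
  funext j
  rw [cst_apply]
  by_cases hij : j = i
  · subst hij
    simp
  · rw [Pi.single_eq_of_ne hij, Pi.single_eq_of_ne hij, map_zero]

theorem stab_le (hm : 3 ≤ m) {L : Sb ι p m} (hL : {L} ∈ XX ι p m) :
    Nat.card (MulAction.stabilizer (GG ι p m) L) ≤
      (p ^ (2 * Fintype.card ι)) ^ Fintype.card ι := by
  obtain ⟨d1, d2, -⟩ := finrank_vertex hm hL
  obtain ⟨Wf, S, ⟨g, rfl⟩, hS, hLe⟩ := exists_vtx' hL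
  have hmem : ∀ (h : MulAction.stabilizer (GG ι p m) L) (i : ι),
      h.1 • g • cst ι p m (Pi.single i 1) ∈ L := by
    intro h i
    have h1 : g • cst ι p m (Pi.single i 1) ∈ L := by
      rw [hLe]
      exact Submodule.mem_sup_left (Submodule.smul_mem_pointwise_smul _ _ _ ⟨_, rfl⟩)
    have h2 := Submodule.smul_mem_pointwise_smul _ h.1 _ h1
    rwa [MulAction.mem_stabilizer_iff.1 h.2] at h2
  let φ : MulAction.stabilizer (GG ι p m) L → ι → L := fun h i => ⟨_, hmem h i⟩
  have hφ : Function.Injective φ := by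
    intro h h' e
    have h3 : ∀ i, (h.1 * g) • cst ι p m (Pi.single i 1) =
        (h'.1 * g) • cst ι p m (Pi.single i 1) := fun i => by
      rw [mul_smul, mul_smul]
      exact congrArg Subtype.val (congrFun e i)
    have h7 : ((h.1 * g : GG ι p m) : VV ι p m ≃ₗ[Rg p m] VV ι p m).toLinearMap =
        ((h'.1 * g : GG ι p m) : VV ι p m ≃ₗ[Rg p m] VV ι p m).toLinearMap := by
      apply (Pi.basisFun (Rg p m) ι).ext
      intro i
      rw [Pi.basisFun_apply, ← cst_single]
      exact h3 i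
    exact Subtype.ext (mul_right_cancel
      (SpecialLinearGroup.ext _ _ fun x => LinearMap.congr_fun h7 x))
  refine (Nat.card_le_card_of_injective φ hφ).trans ?_
  rw [Nat.card_fun, Module.natCard_eq_pow_finrank (K := ZMod p), Nat.card_zmod,
    Nat.card_eq_fintype_card]
  refine Nat.pow_le_pow_left (Nat.pow_le_pow_right (Fact.out : p.Prime).pos ?_) _
  omega

theorem le_stab (hm : 3 ≤ m) (hι : 2 ≤ Fintype.card ι) {L : Sb ι p m} (hL : {L} ∈ XX ι p m) :
    p ≤ Nat.card (MulAction.stabilizer (GG ι p m) L) := by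
  have := finite_GGL (ι := ι) (p := p) (m := m)
  obtain ⟨Wf, S, ⟨g, rfl⟩, hS, rfl⟩ := exists_vtx' hL
  have h1 : g⁻¹ • S < W0 ι p m := by
    rw [← smul_lt_smul_Sb g, smul_inv_smul]
    exact hS
  obtain ⟨T, hT⟩ : ∃ T, T = (g⁻¹ • S).comap (cst ι p m) := ⟨_, rfl⟩
  have hT1 : T < ⊤ := by
    rw [lt_top_iff_ne_top]
    intro e
    apply absurd h1
    apply not_lt_of_ge
    rintro _ ⟨v, rfl⟩
    have h2 : v ∈ (g⁻¹ • S).comap (cst ι p m) := by rw [← hT, e]; exact Submodule.mem_top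
    exact h2
  have hT2 : g⁻¹ • S = T.map (cst ι p m) := by rw [hT, Submodule.map_comap_eq_of_le h1.le]
  obtain ⟨φ, hφ0, hφ⟩ := Submodule.exists_le_ker_of_lt_top T hT1
  obtain ⟨v, hv, hv0⟩ : ∃ v, v ∈ LinearMap.ker φ ∧ v ≠ 0 := by
    refine Submodule.exists_mem_ne_zero_of_ne_bot (LinearMap.ker_ne_bot_of_finrank_lt ?_)
    simp only [Module.finrank_self, Module.finrank_fintype_fun_eq_card]
    omega
  have hlift : ∀ c : ZMod p, ∃ f : GG ι p m, ∀ x, f • cst ι p m x =
      cst ι p m (LinearMap.transvection φ (c • v) x) := fun c =>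
    exists_lift _ (by rw [LinearMap.transvection.det, map_smul, LinearMap.mem_ker.1 hv]; simp) m
  choose f hf using hlift
  have hfix : ∀ c, ∀ U : Sb ι p m, (∀ x ∈ U, f c • x ∈ U) → f c • U = U := by
    intro c U hU
    refine Submodule.eq_of_le_of_finrank_eq ?_ (finrank_smul_Sb _ _)
    intro x hx
    obtain ⟨y, hy, rfl⟩ := (Submodule.mem_smul_pointwise_iff_exists _ _ _).1 hx
    exact hU y hy
  have hmem : ∀ c, g * f c * g⁻¹ ∈
      MulAction.stabilizer (GG ι p m) (vtx (g • W0 ι p m) S) := by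
    intro c
    have e1 : f c • W0 ι p m = W0 ι p m := hfix c _ (by
      rintro _ ⟨x, rfl⟩
      exact ⟨_, (hf c x).symm⟩)
    have e2 : f c • g⁻¹ • S = g⁻¹ • S := hfix c _ (by
      rw [hT2]
      rintro _ ⟨x, hx, rfl⟩
      refine ⟨x, hx, ?_⟩
      rw [hf, LinearMap.transvection.apply, LinearMap.mem_ker.1 (hφ hx), zero_smul, add_zero])
    rw [MulAction.mem_stabilizer_iff, smul_vtx, mul_smul, mul_smul, mul_smul, mul_smul,
      inv_smul_smul, e1, e2, smul_inv_smul]
  have hinj : Function.Injective fun c : ZMod p =>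
      (⟨_, hmem c⟩ : MulAction.stabilizer (GG ι p m) (vtx (g • W0 ι p m) S)) := by
    intro c c' e
    have e1 : f c = f c' := mul_left_cancel (mul_right_cancel (congrArg Subtype.val e))
    obtain ⟨x, hx⟩ : ∃ x, φ x ≠ 0 := by
      by_contra hc
      push Not at hc
      exact hφ0 (LinearMap.ext hc)
    have e2 := hf c x
    rw [e1, hf] at e2
    have e3 := cst_injective (by omega) e2
    rw [LinearMap.transvection.apply, LinearMap.transvection.apply, add_right_inj, smul_smul,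
      smul_smul] at e3
    exact (mul_left_cancel₀ hx (smul_left_injective _ hv0 e3)).symm
  have h2 := Nat.card_le_card_of_injective _ hinj
  rwa [Nat.card_zmod] at h2

theorem le_card_SL (hι : 2 ≤ Fintype.card ι) (m : ℕ) :
    m ≤ Nat.card (Matrix.SpecialLinearGroup ι (Rg p m)) + 1 := by
  have : Finite (Matrix.SpecialLinearGroup ι (Rg p m)) :=
    inferInstanceAs (Finite {A : Matrix ι ι (Rg p m) // A.det = 1})
  obtain ⟨i, j, hij⟩ := Fintype.exists_pair_of_one_lt_card (α := ι) (by omega)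
  have h1 : Function.Injective fun c : Fin (m - 1) => mTr (m := m) (p := p) i j hij (c + 1) := by
    intro c d h
    have h2 : gTr (m := m) (p := p) i j hij (c + 1) = gTr i j hij (d + 1) :=
      congrArg Matrix.SpecialLinearGroup.toLin'_equiv h
    have hc := c.2
    have := gTr_form_injective (p := p) (m := m) i j hij (c := c + 1) (d := d + 1) (by omega)
      (by omega) (by rw [h2])
    apply Fin.ext
    omega
  have h2 := Nat.card_le_card_of_injective _ h1
  rw [Nat.card_eq_fintype_card, Fintype.card_fin] at h2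
  omega

end geometry

/-- The cofilling inequalities for the complexes of the starting files, for all large primes. -/
theorem exp_XX (n : ℕ) (hn : 3 ≤ n) : ∃ p0 : ℕ, ∀ (p : ℕ) [Fact p.Prime], p0 ≤ p → ∃ M : ℕ,
    ∀ m : ℕ, 3 ≤ m → ∀ [Fintype (Sb (Fin n) p m)], ∀ q : ℕ, 1 ≤ q → 2 * q + 1 ≤ n →
      Exp {s | 0 < W (topX (Fin n) p m) s} q M := by
  obtain ⟨p1, hvan⟩ := vanish n
  obtain ⟨β, p2, hβ, hLE⟩ := linkExp_topX n
  obtain ⟨lam1, hlam1, hC2⟩ := coboundary_expansion_of_local n β hβ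
  obtain ⟨lam0, hlam0, hE⟩ := edgeMix_of_base n lam1 hlam1
  obtain ⟨p3, hLC⟩ := linkConn_topX n
  obtain ⟨p4, hp4⟩ := exists_nat_ge (1 / lam0 ^ 2)
  refine ⟨p1 + p2 + p3 + p4, fun p _ hp => ?_⟩
  obtain ⟨D', hD'⟩ := W_topX_le (Fin n) p
  obtain ⟨ε0, hε0, hexp⟩ := hC2 D'
  obtain ⟨M, hM⟩ := exists_nat_ge ((D' : ℝ) / ε0)
  rw [div_le_iff₀ hε0] at hM
  refine ⟨M, fun m hm _ q hq hqn => exp_of_nrm (fun _ => Iff.rfl) hε0 hM (hD' m hm) ?_⟩
  have hcardn : Fintype.card (Fin n) = n := Fintype.card_fin n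
  have htop : ∀ C ∈ topX (Fin n) p m, C.card = n := fun C hC => by
    rw [(mem_topX.1 hC).2, hcardn]
  have hconn0 : LinkConn (topX (Fin n) p m) ∅ := by
    apply linkConn_of_acyc
    have h1 := hvan p m (Fin n) hcardn (by omega) hm 0 (by omega)
    have h2 : {τ : Finset (Sb (Fin n) p m) | Disjoint τ ∅ ∧ 0 < W (topX (Fin n) p m) (∅ ∪ τ)} =
        XX (Fin n) p m := by
      ext τ
      rw [Set.mem_ofPred_eq, empty_union]
      exact ⟨fun h => (W_topX_pos_iff hm τ).1 h.2,
        fun h => ⟨disjoint_empty_right τ, (W_topX_pos_iff hm τ).2 h⟩⟩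
    rw [h2]
    exact h1
  have hconn : ∀ θ : Finset (Sb (Fin n) p m), 0 < W (topX (Fin n) p m) θ → θ.card + 2 ≤ n →
      LinkConn (topX (Fin n) p m) θ := by
    intro θ hW hθ
    rcases θ.eq_empty_or_nonempty with h | h
    · rw [h]; exact hconn0
    · exact hLC p m (Fin n) hcardn (by omega) hm θ h hW hθ
  have hbase : ∀ θ : Finset (Sb (Fin n) p m), 0 < W (topX (Fin n) p m) θ → θ.card + 2 = n →
      SpecGap (topX (Fin n) p m) n θ lam0 := by
    intro θ hW hθ
    have h1 : 1 ≤ lam0 ^ 2 * (p : ℝ) := by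
      have h2 : (p4 : ℝ) ≤ p := by exact_mod_cast (by omega : p4 ≤ p)
      have h3 : 1 / lam0 ^ 2 ≤ (p : ℝ) := hp4.trans h2
      rwa [div_le_iff₀' (by positivity)] at h3
    have h2 := specGap_base (ι := Fin n) hm (by rw [hcardn]; omega) hlam0 h1 θ hW
      (by rw [hcardn]; exact hθ)
    rwa [hcardn] at h2
  refine hexp _ (topX (Fin n) p m) htop (hD' m hm) (hLE p m (Fin n) hcardn (by omega) hm)
    (hE _ htop hconn hbase) q hq (by omega) fun f hf => ?_
  have hvs : Acyc (ZMod 2) (XX (Fin n) p m) q := by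
    have := hvan p m (Fin n) hcardn (by omega) hm (q - 1) (by omega)
    rwa [Nat.sub_add_cancel hq] at this
  obtain ⟨e, he⟩ := cocycle_eq_coboundary (XX (Fin n) p m) q hvs f
    (fun ρ hρ hc => hf ρ hc ((W_topX_pos_iff hm ρ).2 hρ))
  exact ⟨e, fun τ hτ hW => he τ ((W_topX_pos_iff hm τ).1 hW) hτ⟩

/-- Cayley complexes, in the counting form. -/
theorem cayley_cof' (d n : ℕ) (hd : 1 ≤ d) (hn : 2 * d + 1 ≤ n) : ∃ p0 : ℕ,
    ∀ (p : ℕ) [Fact p.Prime], p0 ≤ p → ∃ L M : ℕ, ∀ m : ℕ, 3 ≤ m →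
      ∀ (G : Type) [Group G] [Fintype G] (_ : G ≃* Matrix.SpecialLinearGroup (Fin n) (Rg p m)),
      ∃ (H : Finset (Subgroup G)) (X : AbstractSimplicialComplex G),
        H.card ≤ n ∧ (∀ s, s ∈ X ↔ s.Nonempty ∧ s.card ≤ d + 1 ∧
          ∃ K ∈ H, ∃ g, ∀ x ∈ s, g⁻¹ * x ∈ K) ∧
        IsPure X d ∧ Bdd (KX X) L ∧ Cof X d M := by
  obtain ⟨p0, h0⟩ := exp_XX n (by omega)
  refine ⟨p0 + d + 1, fun p _ hp => ?_⟩
  obtain ⟨M, hM⟩ := h0 p (by omega)
  obtain ⟨k, hk⟩ : ∃ k, k = n + (p ^ (2 * n)) ^ n := ⟨_, rfl⟩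
  refine ⟨k * k, cst2 (k * k + k + (k * k + k) * (k * k + k)) M, fun m hm G _ _ e0 => ?_⟩
  let _ : Fintype (Sb (Fin n) p m) := Fintype.ofFinite _
  let e : G ≃* GG (Fin n) p m := e0.trans Matrix.SpecialLinearGroup.toLin'_equiv
  let _ : MulAction G (Sb (Fin n) p m) :=
    MulAction.compHom _ e.toMonoidHom
  have T0 := typedTrans_topX (ι := Fin n) (p := p) hm
  have T : TypedTrans G (topX (Fin n) p m)
      (fun L => Module.finrank (ZMod p) L) :=
    ⟨fun g => T0.inv (e g), fun g => T0.ty_inv (e g), T0.ty_inj, fun C hC C' hC' => by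
      obtain ⟨g, hg⟩ := T0.trans C hC C' hC'
      obtain ⟨g', rfl⟩ := e.surjective g
      exact ⟨g', hg⟩⟩
  have h1 : (∅ : Finset (Sb (Fin n) p m)) ∈ XX (Fin n) p m :=
    ⟨W0 (Fin n) p m, isForm_W0, ∅, by simp, by simp, by simp⟩
  obtain ⟨C, hC, -⟩ := exists_topX hm h1
  have hCn : C.card = n := by rw [(mem_topX.1 hC).2, Fintype.card_fin]
  have hne : C.Nonempty := card_pos.1 (by omega)
  have hv : ∀ c ∈ C, {c} ∈ XX (Fin n) p m := fun c hc =>
    downClosed_XX C (mem_topX.1 hC).1 _ (singleton_subset_iff.2 hc)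
  have hst : ∀ c : Sb (Fin n) p m,
      Nat.card (MulAction.stabilizer G c) =
        Nat.card (MulAction.stabilizer (GG (Fin n) p m) c) := fun c =>
    Nat.card_congr (e.toEquiv.subtypeEquiv fun _ => Iff.rfl)
  have hH : ((C.image (MulAction.stabilizer G) :
      Finset _) : Set (Subgroup G)).Nonempty :=
    coe_nonempty.2 (hne.image _)
  refine ⟨_, cosetCx _ hH d, card_image_le.trans hCn.le, fun s => Iff.rfl,
    cayley_abs T hC hne (by omega) (fun c hc => ?_) (fun c hc => ?_)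
      (fun q hq hqd => hM m hm q hq (by omega)) _ hH fun K => mem_image⟩
  · rw [hst]
    exact le_trans (by omega) (le_stab hm (by rw [Fintype.card_fin]; omega) (hv c hc))
  · rw [hst]
    refine (stab_le hm (hv c hc)).trans ?_
    rw [Fintype.card_fin]
    omega

end Vale.Agent.N067
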