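import Vale.Agent.P067.H610.Conv
import Vale.Agent.P067.Bdl.B1

/-!
# P067, second draw: local retractions preserve coboundary expansion

`Z ⊇ X` are families of finite sets, closed under subsets. If every member of `Z` outside `X` has a
carrier which is a cone, also relative to `X`, then there are a chain retraction and a chain
homotopy which are local, and the cofilling inequalities pass from `X` to `Z` and back.
-/

set_option autoImplicit false

open Finset

namespace Vale.Agent.N067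

open Vale.Agent.P067 Vale.Agent.P067.H610

attribute [local instance] Classical.propDecidable

variable {α : Type}

/-- Chains. -/
abbrev Ch (α : Type) : Type := Finset α →₀ ZMod 2

/-- The pairing of a cochain with chains. -/
noncomputable def pr (f : Finset α → ZMod 2) : Ch α →ₗ[ZMod 2] ZMod 2 :=
  Finsupp.linearCombination (ZMod 2) f

theorem pr_single (f : Finset α → ZMod 2) (s : Finset α) : pr f (Finsupp.single s 1) = f s := by
  simp [pr]

theorem pr_bd (f : Finset α → ZMod 2) (c : Ch α) : pr f (bd c) = pr (cb f) c := by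
  have : pr f ∘ₗ (bd : Ch α →ₗ[ZMod 2] Ch α) = pr (cb f) := by
    apply Finsupp.lhom_ext
    intro s a
    simp only [pr, LinearMap.comp_apply, bd_single, map_sum, Finsupp.linearCombination_single, cb,
      smul_sum]
  exact LinearMap.congr_fun this c

theorem pr_add (f g : Finset α → ZMod 2) (c : Ch α) :
    pr (fun s => f s + g s) c = pr f c + pr g c := by
  simp only [pr, Finsupp.linearCombination_apply, Finsupp.sum, smul_add, sum_add_distrib]

theorem pr_ne_zero {f : Finset α → ZMod 2} {c : Ch α} (h : pr f c ≠ 0) :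
    ∃ s ∈ c.support, f s ≠ 0 := by
  by_contra hc
  push Not at hc
  apply h
  simp only [pr, Finsupp.linearCombination_apply, Finsupp.sum]
  exact sum_eq_zero fun s hs => by rw [hc s hs, smul_zero]

/-- The chain `c` is supported on sets with the property `P`. -/
def Sup (c : Ch α) (P : Finset α → Prop) : Prop := ∀ s ∈ c.support, P s

theorem Sup.add {c d : Ch α} {P : Finset α → Prop} (hc : Sup c P) (hd : Sup d P) :
    Sup (c + d) P := fun s hs => by
  rcases mem_union.1 (Finsupp.support_add hs) with h | h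
  · exact hc s h
  · exact hd s h

theorem sup_zero (P : Finset α → Prop) : Sup (0 : Ch α) P := fun s hs => by simp at hs

theorem sup_single {P : Finset α → Prop} {s : Finset α} (h : P s) :
    Sup (Finsupp.single s 1) P := fun t ht => by
  rw [mem_singleton.1 (Finsupp.support_single_subset ht)]
  exact h

theorem sup_sum {ι : Type} {P : Finset α → Prop} (T : Finset ι) (c : ι → Ch α)
    (h : ∀ i ∈ T, Sup (c i) P) : Sup (∑ i ∈ T, c i) P :=
  sum_induction c (fun x => Sup x P) (fun _ _ => Sup.add) (sup_zero P) h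

theorem Sup.mono {c : Ch α} {P Q : Finset α → Prop} (hc : Sup c P) (h : ∀ s, P s → Q s) :
    Sup c Q := fun s hs => h s (hc s hs)

theorem Sup.cone {c : Ch α} {P Q : Finset α → Prop} (x : α) (hc : Sup c P)
    (h : ∀ s, P s → x ∉ s → Q (insert x s)) : Sup (cone x c) Q := fun s hs => by
  obtain ⟨t, ht, hx, rfl⟩ := exists_of_mem_support_cone hs
  exact h t (hc t ht) hx

/-- The linear extension of a map from sets to chains. -/
noncomputable def lin (φ : Finset α → Ch α) : Ch α →ₗ[ZMod 2] Ch α :=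
  Finsupp.linearCombination (ZMod 2) φ

theorem lin_single (φ : Finset α → Ch α) (s : Finset α) : lin φ (Finsupp.single s 1) = φ s := by
  simp [lin]

theorem lin_bd (φ : Finset α → Ch α) (s : Finset α) :
    lin φ (bd (Finsupp.single s 1)) = ∑ v ∈ s, φ (s.erase v) := by
  rw [bd_single, map_sum]
  exact sum_congr rfl fun v _ => lin_single φ _

theorem sum_sum_erase (φ : Finset α → Ch α) (s : Finset α) :
    ∑ v ∈ s, ∑ w ∈ s.erase v, φ ((s.erase v).erase w) = 0 := by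
  have h : lin φ (bd (bd (Finsupp.single s 1))) = 0 := by rw [bd_bd, map_zero]
  rw [bd_single, map_sum, map_sum] at h
  rw [← h]
  exact sum_congr rfl fun v _ => (lin_bd φ _).symm

/-- The recursion which defines the retraction and the homotopy. -/
noncomputable def rec1 (X : Set (Finset α)) (a : Finset α → α) : ℕ → Finset α → Ch α × Ch α
  | 0, ρ => (Finsupp.single ρ 1, 0)
  | n + 1, ρ => if ρ ∈ X then (Finsupp.single ρ 1, 0) else
      (cone (a ρ) (∑ v ∈ ρ, (rec1 X a n (ρ.erase v)).1),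
        cone (a ρ) (Finsupp.single ρ 1 + ∑ v ∈ ρ, (rec1 X a n (ρ.erase v)).2))

/-- The chain retraction. -/
noncomputable def piC (X : Set (Finset α)) (a : Finset α → α) (ρ : Finset α) : Ch α :=
  (rec1 X a ρ.card ρ).1

/-- The chain homotopy. -/
noncomputable def hC (X : Set (Finset α)) (a : Finset α → α) (ρ : Finset α) : Ch α :=
  (rec1 X a ρ.card ρ).2

theorem rec_mem {X : Set (Finset α)} (a : Finset α → α) {ρ : Finset α} (h : ρ ∈ X) :
    piC X a ρ = Finsupp.single ρ 1 ∧ hC X a ρ = 0 := by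
  unfold piC hC
  cases ρ.card with
  | zero => exact ⟨rfl, rfl⟩
  | succ n => simp only [rec1, if_pos h, and_self]

theorem rec_not {X : Set (Finset α)} (a : Finset α → α) {ρ : Finset α} (h0 : ∅ ∈ X)
    (h : ρ ∉ X) : piC X a ρ = cone (a ρ) (∑ v ∈ ρ, piC X a (ρ.erase v)) ∧
      hC X a ρ = cone (a ρ) (Finsupp.single ρ 1 + ∑ v ∈ ρ, hC X a (ρ.erase v)) := by
  have hne : ρ.card ≠ 0 := fun e => h (by rw [card_eq_zero.1 e]; exact h0)
  obtain ⟨n, hn⟩ : ∃ n, ρ.card = n + 1 := ⟨ρ.card - 1, by omega⟩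
  have h1 : ∀ v ∈ ρ, (ρ.erase v).card = n := fun v hv => by rw [card_erase_of_mem hv]; omega
  have h2 : ∑ v ∈ ρ, piC X a (ρ.erase v) = ∑ v ∈ ρ, (rec1 X a n (ρ.erase v)).1 :=
    sum_congr rfl fun v hv => by rw [piC, h1 v hv]
  have h3 : ∑ v ∈ ρ, hC X a (ρ.erase v) = ∑ v ∈ ρ, (rec1 X a n (ρ.erase v)).2 :=
    sum_congr rfl fun v hv => by rw [hC, h1 v hv]
  rw [h2, h3]
  unfold piC hC
  rw [hn]
  simp only [rec1, if_neg h, and_self]

/-- Every member of `Z` outside `X` has a carrier `G ρ` which is a cone with apex `a ρ`, also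
relative to `X`. -/
structure Retr (Z X : Set (Finset α)) (G : Finset α → Set (Finset α)) (a : Finset α → α) :
    Prop where
  empty : ∅ ∈ X
  dZ : DownClosed Z
  dX : DownClosed X
  sub : X ⊆ Z
  self : ∀ ρ ∈ Z, ρ ∉ X → ρ ∈ G ρ
  dG : ∀ ρ, DownClosed (G ρ)
  GZ : ∀ ρ, G ρ ⊆ Z
  coneG : ∀ ρ ∈ Z, ρ ∉ X → ∀ η ∈ G ρ, insert (a ρ) η ∈ G ρ
  coneX : ∀ ρ ∈ Z, ρ ∉ X → ∀ η ∈ G ρ, η ∈ X → insert (a ρ) η ∈ X
  mono : ∀ ρ ∈ Z, ∀ ρ', ρ' ⊆ ρ → ρ' ∉ X → G ρ' ⊆ G ρ

theorem add_add_self (x y : Ch α) : x + (x + y) = y := by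
  rw [← add_assoc, add_self_zero, zero_add]

theorem Retr.spec {Z X : Set (Finset α)} {G : Finset α → Set (Finset α)} {a : Finset α → α}
    (H : Retr Z X G a) (n : ℕ) : ∀ ρ ∈ Z, ρ.card = n →
      Sup (piC X a ρ) (fun η => η ∈ X ∧ η.card = n ∧ (η = ρ ∨ (ρ ∉ X ∧ η ∈ G ρ))) ∧
      bd (piC X a ρ) = ∑ v ∈ ρ, piC X a (ρ.erase v) ∧
      Sup (hC X a ρ) (fun η => η.card = n + 1 ∧ ρ ∉ X ∧ η ∈ G ρ) ∧
      bd (hC X a ρ) + ∑ v ∈ ρ, hC X a (ρ.erase v) = Finsupp.single ρ 1 + piC X a ρ := by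
  induction n using Nat.strong_induction_on with
  | _ n ih =>
  intro ρ hρ hn
  by_cases hX : ρ ∈ X
  · have h1 : ∀ v, ρ.erase v ∈ X := fun v => H.dX ρ hX _ (erase_subset _ _)
    rw [(rec_mem a hX).1, (rec_mem a hX).2]
    refine ⟨sup_single ⟨hX, hn, Or.inl rfl⟩, ?_, sup_zero _, ?_⟩
    · rw [bd_single]
      exact sum_congr rfl fun v _ => (rec_mem a (h1 v)).1.symm
    · rw [map_zero, zero_add, add_self_zero]
      exact sum_eq_zero fun v _ => (rec_mem a (h1 v)).2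
  · have hne : ρ.card ≠ 0 := fun e => hX (by rw [card_eq_zero.1 e]; exact H.empty)
    have hc : ∀ v ∈ ρ, (ρ.erase v).card = n - 1 := fun v hv => by rw [card_erase_of_mem hv, hn]
    have IH := fun v (hv : v ∈ ρ) => ih (n - 1) (by omega) (ρ.erase v)
      (H.dZ ρ hρ _ (erase_subset _ _)) (hc v hv)
    have hself := H.self ρ hρ hX
    have s1 : Sup (∑ v ∈ ρ, piC X a (ρ.erase v))
        (fun η => η ∈ X ∧ η.card = n - 1 ∧ η ∈ G ρ) := by
      refine sup_sum _ _ fun v hv => (IH v hv).1.mono ?_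
      rintro η ⟨h1, h2, h3 | ⟨h3, h4⟩⟩
      · exact ⟨h1, h2, h3 ▸ H.dG ρ ρ hself _ (erase_subset _ _)⟩
      · exact ⟨h1, h2, H.mono ρ hρ _ (erase_subset _ _) h3 h4⟩
    have s2 : Sup (Finsupp.single ρ 1 + ∑ v ∈ ρ, hC X a (ρ.erase v))
        (fun η => η.card = n ∧ η ∈ G ρ) := by
      refine (sup_single ⟨hn, hself⟩).add (sup_sum _ _ fun v hv => (IH v hv).2.2.1.mono ?_)
      rintro η ⟨h1, h3, h4⟩
      exact ⟨by omega, H.mono ρ hρ _ (erase_subset _ _) h3 h4⟩
    have b1 : bd (∑ v ∈ ρ, piC X a (ρ.erase v)) = 0 := by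
      rw [map_sum, ← sum_sum_erase (piC X a) ρ]
      exact sum_congr rfl fun v hv => (IH v hv).2.1
    have b2 : bd (Finsupp.single ρ 1 + ∑ v ∈ ρ, hC X a (ρ.erase v)) =
        ∑ v ∈ ρ, piC X a (ρ.erase v) := by
      have h1 : ∑ v ∈ ρ, (bd (hC X a (ρ.erase v)) +
          ∑ w ∈ ρ.erase v, hC X a ((ρ.erase v).erase w)) =
          ∑ v ∈ ρ, (Finsupp.single (ρ.erase v) 1 + piC X a (ρ.erase v)) :=
        sum_congr rfl fun v hv => (IH v hv).2.2.2
      rw [sum_add_distrib, sum_add_distrib, sum_sum_erase, add_zero] at h1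
      rw [map_add, map_sum, h1, bd_single, add_add_self]
    obtain ⟨e1, e2⟩ := rec_not a H.empty hX
    refine ⟨?_, ?_, ?_, ?_⟩
    · rw [e1]
      refine s1.cone _ ?_
      rintro η ⟨h1, h2, h3⟩ hx
      refine ⟨H.coneX ρ hρ hX η h3 h1, ?_, Or.inr ⟨hX, H.coneG ρ hρ hX η h3⟩⟩
      rw [card_insert_of_notMem hx]
      omega
    · rw [e1, bd_cone, b1, map_zero, add_zero]
    · rw [e2]
      refine s2.cone _ ?_
      rintro η ⟨h1, h3⟩ hx
      refine ⟨?_, hX, H.coneG ρ hρ hX η h3⟩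
      rw [card_insert_of_notMem hx, h1]
    · rw [e2, bd_cone, b2, ← e1]
      have h1 := add_self_zero (∑ v ∈ ρ, hC X a (ρ.erase v))
      calc _ = Finsupp.single ρ 1 + piC X a ρ + (∑ v ∈ ρ, hC X a (ρ.erase v) +
            ∑ v ∈ ρ, hC X a (ρ.erase v)) := by abel
        _ = _ := by rw [h1, add_zero]

variable [Fintype α]

/-- The number of members of `K` of size `q` at which `f` does not vanish. -/
noncomputable def cn (K : Set (Finset α)) (q : ℕ) (f : Finset α → ZMod 2) : ℕ :=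
  ((univ : Finset (Finset α)).filter fun s => s ∈ K ∧ s.card = q ∧ f s ≠ 0).card

/-- The cofilling inequality in size `q`. -/
def Exp (K : Set (Finset α)) (q M : ℕ) : Prop :=
  ∀ f : Finset α → ZMod 2, ∃ e : Finset α → ZMod 2,
    cn K q (fun s => f s + cb e s) ≤ M * cn K (q + 1) (cb f)

/-- Every point has at most `L` neighbours in `K`. -/
def Bdd (K : Set (Finset α)) (L : ℕ) : Prop :=
  ∀ v : α, ∃ T : Finset α, T.card ≤ L ∧ ∀ s ∈ K, v ∈ s → s ⊆ T

omit [Fintype α] in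
theorem Bdd.mono {K K' : Set (Finset α)} {L : ℕ} (h : Bdd K L) (hK : K' ⊆ K) : Bdd K' L :=
  fun v => (h v).imp fun _ hT => ⟨hT.1, fun s hs => hT.2 s (hK hs)⟩

theorem Exp.mono {K : Set (Finset α)} {q M M' : ℕ} (h : Exp K q M) (hM : M ≤ M') : Exp K q M' :=
  fun f => (h f).imp fun _ he => he.trans (Nat.mul_le_mul_right _ hM)

theorem cn_mono {K K' : Set (Finset α)} {q : ℕ} {f g : Finset α → ZMod 2}
    (h : ∀ s ∈ K, s.card = q → f s ≠ 0 → s ∈ K' ∧ g s ≠ 0) : cn K q f ≤ cn K' q g := by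
  refine card_le_card fun s hs => ?_
  rw [mem_filter] at hs ⊢
  obtain ⟨h1, h2⟩ := h s hs.2.1 hs.2.2.1 hs.2.2.2
  exact ⟨hs.1, h1, hs.2.2.1, h2⟩

theorem cn_add_le (K : Set (Finset α)) (q : ℕ) (f g : Finset α → ZMod 2) :
    cn K q (fun s => f s + g s) ≤ cn K q f + cn K q g := by
  refine le_trans (card_le_card fun s hs => ?_) (card_union_le _ _)
  rw [mem_filter] at hs
  rw [mem_union, mem_filter, mem_filter]
  by_cases h : f s = 0
  · exact Or.inr ⟨hs.1, hs.2.1, hs.2.2.1, fun e => hs.2.2.2 (by simp only [h, e, add_zero])⟩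
  · exact Or.inl ⟨hs.1, hs.2.1, hs.2.2.1, h⟩

omit [Fintype α] in
/-- The number of sets whose carrier contains a given nonempty set is bounded. -/
theorem Retr.near {Z X : Set (Finset α)} {G : Finset α → Set (Finset α)} {a : Finset α → α}
    (H : Retr Z X G a) {L : ℕ} (hL : Bdd Z L) {η : Finset α} (hη : η.Nonempty) :
    ∃ T : Finset (Finset α), T.card ≤ L * 2 ^ L + 1 ∧
      ∀ ρ ∈ Z, (η = ρ ∨ (ρ ∉ X ∧ η ∈ G ρ)) → ρ ∈ T := by
  obtain ⟨u, hu⟩ := hη
  choose T hT using hL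
  refine ⟨insert η ((T u).biUnion fun x => (T x).powerset), ?_, ?_⟩
  · refine (card_insert_le _ _).trans (Nat.add_le_add_right ?_ 1)
    refine (card_biUnion_le_card_mul _ _ (2 ^ L) fun x _ => ?_).trans
      (Nat.mul_le_mul_right _ (hT u).1)
    rw [card_powerset]
    exact Nat.pow_le_pow_right (by norm_num) (hT x).1
  · rintro ρ hρ (h | ⟨h1, h2⟩)
    · rw [h]
      exact mem_insert_self _ _
    · refine mem_insert_of_mem (mem_biUnion.2 ⟨a ρ, ?_, mem_powerset.2 ?_⟩)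
      · exact (hT u).2 _ (H.GZ ρ (H.coneG ρ hρ h1 η h2)) (mem_insert_of_mem hu)
          (mem_insert_self _ _)
      · exact (subset_insert _ _).trans ((hT (a ρ)).2 _
          (H.GZ ρ (H.coneG ρ hρ h1 ρ (H.self ρ hρ h1))) (mem_insert_self _ _))

theorem Retr.cn_pr {Z X : Set (Finset α)} {G : Finset α → Set (Finset α)} {a : Finset α → α}
    (H : Retr Z X G a) {L : ℕ} (hL : Bdd Z L) (K : Set (Finset α)) {q q' : ℕ} (hq : 1 ≤ q')
    (c : Finset α → Ch α) (hc : ∀ ρ ∈ Z, ρ.card = q →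
      Sup (c ρ) fun η => η ∈ K ∧ η.card = q' ∧ (η = ρ ∨ (ρ ∉ X ∧ η ∈ G ρ)))
    (f : Finset α → ZMod 2) : cn Z q (fun ρ => pr f (c ρ)) ≤ (L * 2 ^ L + 1) * cn K q' f := by
  have key : ∀ η : Finset α, ∃ T : Finset (Finset α), T.card ≤ L * 2 ^ L + 1 ∧
      (η.Nonempty → ∀ ρ ∈ Z, (η = ρ ∨ (ρ ∉ X ∧ η ∈ G ρ)) → ρ ∈ T) := by
    intro η
    by_cases hη : η.Nonempty
    · obtain ⟨T, h1, h2⟩ := H.near hL hη
      exact ⟨T, h1, fun _ => h2⟩
    · exact ⟨∅, Nat.zero_le _, fun h => absurd h hη⟩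
  choose T hT using key
  unfold cn
  rw [mul_comm]
  refine le_trans (card_le_card fun ρ hρ => ?_)
    (card_biUnion_le_card_mul _ T _ fun η _ => (hT η).1)
  rw [mem_filter] at hρ
  obtain ⟨η, h1, h2⟩ := pr_ne_zero hρ.2.2.2
  obtain ⟨h3, h4, h5⟩ := hc ρ hρ.2.1 hρ.2.2.1 η h1
  refine mem_biUnion.2 ⟨η, mem_filter.2 ⟨mem_univ _, h3, h4, h2⟩, ?_⟩
  exact (hT η).2 (card_pos.1 (by omega)) ρ hρ.2.1 h5

/-- Expansion passes from the retract to the whole family. -/
theorem Retr.up {Z X : Set (Finset α)} {G : Finset α → Set (Finset α)} {a : Finset α → α}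
    (H : Retr Z X G a) {L : ℕ} (hL : Bdd Z L) {q M : ℕ} (hq : 1 ≤ q) (h : Exp X q M) :
    Exp Z q ((L * 2 ^ L + 1) * (M + 1)) := by
  intro F
  obtain ⟨e, he⟩ := h F
  refine ⟨fun ρ => pr e (piC X a ρ) + pr F (hC X a ρ), ?_⟩
  have h1 : cn Z q (fun ρ => F ρ + cb (fun ρ => pr e (piC X a ρ) + pr F (hC X a ρ)) ρ) ≤
      cn Z q (fun ρ => pr (fun s => F s + cb e s) (piC X a ρ) + pr (cb F) (hC X a ρ)) := by
    refine cn_mono fun ρ hρ hc hne => ⟨hρ, fun h0 => hne ?_⟩
    obtain ⟨-, b1, -, b2⟩ := H.spec q ρ hρ hc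
    have h2 : ∑ v ∈ ρ, hC X a (ρ.erase v) =
        bd (hC X a ρ) + (Finsupp.single ρ 1 + piC X a ρ) := by rw [← b2, add_add_self]
    rw [← h0, cb, sum_add_distrib, ← map_sum, ← map_sum, ← b1, h2, pr_add, map_add, map_add,
      pr_bd, pr_bd, pr_single]
    generalize F ρ = x
    generalize pr (cb e) (piC X a ρ) = y
    generalize pr (cb F) (hC X a ρ) = z
    generalize pr F (piC X a ρ) = w
    revert x y z w
    decide
  have h2 := H.cn_pr hL X hq (piC X a) (fun ρ hρ hc => (H.spec q ρ hρ hc).1)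
    (fun s => F s + cb e s)
  have h3 := H.cn_pr hL Z (q := q) (q' := q + 1) (by omega) (hC X a) (fun ρ hρ hc =>
    (H.spec q ρ hρ hc).2.2.1.mono fun η hη => ⟨H.GZ ρ hη.2.2, hη.1, Or.inr hη.2⟩) (cb F)
  have h4 : cn X (q + 1) (cb F) ≤ cn Z (q + 1) (cb F) :=
    cn_mono fun s hs _ hne => ⟨H.sub hs, hne⟩
  refine h1.trans ((cn_add_le _ _ _ _).trans ((Nat.add_le_add h2 h3).trans ?_))
  rw [← mul_add, mul_assoc, add_mul M, one_mul]
  exact Nat.mul_le_mul_left _ (Nat.add_le_add_right (he.trans (Nat.mul_le_mul_left _ h4)) _)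

/-- Expansion passes from the whole family to the retract. -/
theorem Retr.down {Z X : Set (Finset α)} {G : Finset α → Set (Finset α)} {a : Finset α → α}
    (H : Retr Z X G a) {L : ℕ} (hL : Bdd Z L) {q M : ℕ} (h : Exp Z q M) :
    Exp X q (M * (L * 2 ^ L + 1)) := by
  intro f
  obtain ⟨E, hE⟩ := h fun ρ => pr f (piC X a ρ)
  refine ⟨E, le_trans (cn_mono fun s hs _ hne => ⟨H.sub hs, ?_⟩) (hE.trans ?_)⟩
  · rw [(rec_mem a hs).1, pr_single]
    exact hne
  · rw [mul_assoc]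
    refine Nat.mul_le_mul_left _ (le_trans (cn_mono fun ρ hρ hc hne => ⟨hρ, ?_⟩)
      (H.cn_pr hL X (q := q + 1) (q' := q + 1) (by omega) (piC X a)
        (fun ρ hρ hc => (H.spec (q + 1) ρ hρ hc).1) (cb f)))
    rw [← pr_bd, (H.spec (q + 1) ρ hρ hc).2.1, map_sum]
    exact hne

/-- The constant after passing up to `Z` and down again. -/
def cst2 (L M : ℕ) : ℕ := (L * 2 ^ L + 1) * (M + 1) * (L * 2 ^ L + 1)

theorem Exp.congr {K K' : Set (Finset α)} {q M : ℕ} (h : Exp K q M)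
    (h1 : ∀ s : Finset α, s.card = q ∨ s.card = q + 1 → (s ∈ K ↔ s ∈ K')) : Exp K' q M := by
  intro f
  obtain ⟨e, he⟩ := h f
  refine ⟨e, le_trans (cn_mono fun s hs hc hne => ⟨(h1 s (Or.inl hc)).2 hs, hne⟩)
    (he.trans (Nat.mul_le_mul_left _ ?_))⟩
  exact cn_mono fun s hs hc hne => ⟨(h1 s (Or.inr hc)).1 hs, hne⟩

section img

variable {β : Type} [Fintype β]

omit [Fintype α] [Fintype β] in
theorem cb_map (j : β ↪ α) (f : Finset α → ZMod 2) (t : Finset β) :
    cb f (t.map j) = cb (fun s => f (s.map j)) t := by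
  unfold cb
  rw [sum_map]
  exact sum_congr rfl fun v _ => by simp only [map_erase]

theorem cn_map (j : β ↪ α) {K : Set (Finset α)} {K0 : Set (Finset β)}
    (h : ∀ s, s ∈ K ↔ ∃ t ∈ K0, t.map j = s) (q : ℕ) (f : Finset α → ZMod 2) :
    cn K0 q (fun t => f (t.map j)) = cn K q f := by
  unfold cn
  refine card_bij (fun t _ => t.map j) ?_ ?_ ?_
  · intro t ht
    rw [mem_filter] at ht ⊢
    exact ⟨mem_univ _, (h _).2 ⟨t, ht.2.1, rfl⟩, by rw [card_map, ht.2.2.1], ht.2.2.2⟩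
  · intro s _ t _ e
    exact map_injective j e
  · intro s hs
    rw [mem_filter] at hs
    obtain ⟨t, ht, rfl⟩ := (h s).1 hs.2.1
    refine ⟨t, mem_filter.2 ⟨mem_univ _, ht, ?_, hs.2.2.2⟩, rfl⟩
    rw [← card_map j, hs.2.2.1]

theorem exp_map (j : β ↪ α) {K : Set (Finset α)} {K0 : Set (Finset β)}
    (h : ∀ s, s ∈ K ↔ ∃ t ∈ K0, t.map j = s) (q M : ℕ) : Exp K q M ↔ Exp K0 q M := by
  have hpre : ∀ t : Finset β, (t.map j).preimage j j.injective.injOn = t := fun t => by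
    ext x
    rw [mem_preimage, mem_map']
  constructor
  · intro H f
    obtain ⟨E, hE⟩ := H fun s => f (s.preimage j j.injective.injOn)
    refine ⟨fun t => E (t.map j), ?_⟩
    rw [← cn_map j h, ← cn_map j h] at hE
    simp only [cb_map, hpre] at hE
    exact hE
  · intro H F
    obtain ⟨e, he⟩ := H fun t => F (t.map j)
    refine ⟨fun s => e (s.preimage j j.injective.injOn), ?_⟩
    rw [← cn_map j h, ← cn_map j h]
    simp only [cb_map, hpre]
    exact he

end img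

end Vale.Agent.N067
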