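import Vale.Agent.N067.Core

/-!
# P067, second draw: cylinders, clique families, and the duality of a relation
-/

set_option autoImplicit false

open Finset

namespace Vale.Agent.N067

open Vale.Agent.P067 Vale.Agent.P067.H610

attribute [local instance] Classical.propDecidable

variable {α : Type}

theorem mem_ins {a x : α} {s : Finset α} : x ∈ insert a s ↔ x = a ∨ x ∈ s := mem_insert

/-- The cylinder of a relation between two families. -/
def Cyl (side : α → Bool) (r : α → α → Prop) (K : Bool → Set (Finset α)) : Set (Finset α) :=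
  {s | (∀ x ∈ s, ∀ y ∈ s, side x ≠ side y → r x y) ∧
    ∀ b, ∃ t ∈ K b, ∀ x ∈ s, side x = b → x ∈ t}

theorem down_Cyl (side : α → Bool) (r : α → α → Prop) (K : Bool → Set (Finset α)) :
    DownClosed (Cyl side r K) := fun _ hs _ ht =>
  ⟨fun x hx y hy => hs.1 x (ht hx) y (ht hy), fun b =>
    (hs.2 b).imp fun _ h => ⟨h.1, fun x hx => h.2 x (ht hx)⟩⟩

theorem bool_ne {a b c : Bool} (h1 : a ≠ b) (h2 : c ≠ b) : a = c := by
  revert a b c
  decide

theorem sub_Cyl {side : α → Bool} {r : α → α → Prop} {K : Bool → Set (Finset α)}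
    (h0 : ∀ b, ∅ ∈ K b) (hs : ∀ b, ∀ t ∈ K b, ∀ x ∈ t, side x = b) (b : Bool) :
    K b ⊆ Cyl side r K := by
  intro s h
  refine ⟨fun x hx y hy hne => absurd ((hs b s h x hx).trans (hs b s h y hy).symm) hne, fun c => ?_⟩
  by_cases hc : c = b
  · exact ⟨s, hc ▸ h, fun x hx _ => hx⟩
  · exact ⟨∅, h0 c, fun x hx e => absurd (e.symm.trans (hs b s h x hx)) hc⟩

theorem mem_of_Cyl {side : α → Bool} {r : α → α → Prop} {K : Bool → Set (Finset α)}
    (hd : ∀ b, DownClosed (K b)) {b : Bool} {s : Finset α} (h : s ∈ Cyl side r K)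
    (h1 : ∀ x ∈ s, side x = b) : s ∈ K b := by
  obtain ⟨t, ht, h2⟩ := h.2 b
  exact hd b t ht s fun x hx => h2 x hx (h1 x hx)

/-- The cylinder retracts to the side `b` if the neighbourhoods of the points of the other side are
simplices and the members of the other family have common neighbours. -/
theorem cyl_retr [Nonempty α] {side : α → Bool} {r : α → α → Prop} {K : Bool → Set (Finset α)}
    (hsymm : ∀ x y, r x y → r y x) (hd : ∀ b, DownClosed (K b)) (h0 : ∀ b, ∅ ∈ K b)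
    (hs : ∀ b, ∀ t ∈ K b, ∀ x ∈ t, side x = b) (b : Bool)
    (h1 : ∀ c, c ≠ b → ∀ u ∈ K c, ∀ y ∈ u, ∀ t : Finset α, (∀ x ∈ t, side x = b ∧ r x y) →
      t ∈ K b)
    (h2 : ∀ c, c ≠ b → ∀ u ∈ K c, u.Nonempty → ∃ a, side a = b ∧ ∀ y ∈ u, r a y) :
    ∃ G a, Retr (Cyl side r K) (K b) G a := by
  have hz : ∀ ρ ∈ Cyl side r K, ρ ∉ K b → ∃ z ∈ ρ, side z ≠ b := by
    intro ρ hρ hX
    by_contra hc
    push Not at hc
    exact hX (mem_of_Cyl hd hρ hc)
  have key : ∀ ρ : Finset α, ∃ a, ρ ∈ Cyl side r K → ρ ∉ K b →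
      side a = b ∧ ∀ y ∈ ρ, side y ≠ b → r a y := by
    intro ρ
    by_cases h : ρ ∈ Cyl side r K ∧ ρ ∉ K b
    · obtain ⟨z, hz1, hz2⟩ := hz ρ h.1 h.2
      obtain ⟨t, ht, h3⟩ := h.1.2 (side z)
      have h4 : ρ.filter (fun y => side y ≠ b) ∈ K (side z) := hd _ t ht _ fun y hy =>
        h3 y (mem_filter.1 hy).1 (bool_ne (mem_filter.1 hy).2 hz2)
      obtain ⟨a, ha1, ha2⟩ := h2 _ hz2 _ h4 ⟨z, mem_filter.2 ⟨hz1, hz2⟩⟩
      exact ⟨a, fun _ _ => ⟨ha1, fun y hy hb => ha2 y (mem_filter.2 ⟨hy, hb⟩)⟩⟩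
    · exact ⟨Classical.arbitrary α, fun h3 h4 => absurd ⟨h3, h4⟩ h⟩
  choose a ha using key
  let G : Finset α → Set (Finset α) := fun ρ => {η | η ∈ Cyl side r K ∧
    (∀ x ∈ η, side x ≠ b → x ∈ ρ) ∧ ∃ z ∈ ρ, side z ≠ b ∧ ∀ x ∈ η, side x = b → r x z}
  have hcone : ∀ ρ ∈ Cyl side r K, ρ ∉ K b → ∀ η ∈ G ρ, insert (a ρ) η ∈ G ρ := by
    rintro ρ hρ hX η ⟨g1, g2, z, g3, g4, g5⟩
    obtain ⟨a1, a2⟩ := ha ρ hρ hX
    have g6 : ∀ x ∈ insert (a ρ) η, side x = b → r x z := by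
      intro x hx hb
      rcases mem_insert.1 hx with rfl | hx
      · exact a2 z g3 g4
      · exact g5 x hx hb
    have g7 : ∀ x ∈ insert (a ρ) η, side x ≠ b → x ∈ η := fun x hx hb =>
      (mem_insert.1 hx).resolve_left fun e => hb (e ▸ a1)
    refine ⟨⟨?_, fun c => ?_⟩, fun x hx hb => g2 x (g7 x hx hb) hb, z, g3, g4, g6⟩
    · intro x hx y hy hne
      rcases mem_insert.1 hx with rfl | hx
      · have hb : side y ≠ b := fun e => hne (a1.trans e.symm)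
        exact a2 y (g2 y (g7 y hy hb) hb) hb
      · rcases mem_insert.1 hy with rfl | hy
        · have hb : side x ≠ b := fun e => hne (e.trans a1.symm)
          exact hsymm _ _ (a2 x (g2 x hx hb) hb)
        · exact g1.1 x hx y hy hne
    · by_cases hc : c = b
      · obtain ⟨t, ht, h3⟩ := hρ.2 (side z)
        refine ⟨(insert (a ρ) η).filter (fun x => side x = b), ?_, fun x hx e =>
          mem_filter.2 ⟨hx, e.trans hc⟩⟩
        rw [hc]
        exact h1 _ g4 t ht z (h3 z g3 rfl) _ fun x hx =>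
          ⟨(mem_filter.1 hx).2, g6 x (mem_filter.1 hx).1 (mem_filter.1 hx).2⟩
      · obtain ⟨t, ht, h3⟩ := g1.2 c
        exact ⟨t, ht, fun x hx e => h3 x (g7 x hx fun e' => hc (e.symm.trans e')) e⟩
  refine ⟨G, a, h0 b, down_Cyl _ _ _, hd b, sub_Cyl h0 hs b, ?_, ?_, fun _ _ h => h.1, hcone,
    ?_, ?_⟩
  · intro ρ hρ hX
    obtain ⟨z, hz1, hz2⟩ := hz ρ hρ hX
    exact ⟨hρ, fun x hx _ => hx, z, hz1, hz2, fun x hx e =>
      hρ.1 x hx z hz1 fun e' => hz2 (e'.symm.trans e)⟩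
  · rintro ρ η ⟨g1, g2, z, g3, g4, g5⟩ t ht
    exact ⟨down_Cyl _ _ _ η g1 t ht, fun x hx => g2 x (ht hx), z, g3, g4, fun x hx => g5 x (ht hx)⟩
  · intro ρ hρ hX η hη hηX
    refine mem_of_Cyl hd (hcone ρ hρ hX η hη).1 fun x hx => ?_
    rcases mem_insert.1 hx with rfl | hx
    · exact (ha ρ hρ hX).1
    · exact hs b η hηX x hx
  · rintro ρ _ ρ' h _ η ⟨g1, g2, z, g3, g4, g5⟩
    exact ⟨g1, fun x hx hb => h (g2 x hx hb), z, h g3, g4, g5⟩

/-- The cliques of a reflexive symmetric relation on the valid points. -/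
def Cl (val : α → Prop) (adj : α → α → Prop) : Set (Finset α) :=
  {s | (∀ x ∈ s, val x) ∧ ∀ x ∈ s, ∀ y ∈ s, adj x y}

theorem down_Cl (val : α → Prop) (adj : α → α → Prop) : DownClosed (Cl val adj) :=
  fun _ hs _ ht => ⟨fun x hx => hs.1 x (ht hx), fun x hx y hy => hs.2 x (ht hx) y (ht hy)⟩

/-- The relation `adj` without the bad pairs. -/
def cut (adj bad : α → α → Prop) (x y : α) : Prop := adj x y ∧ ¬ bad x y ∧ ¬ bad y x

/-- Removing dominated edges. -/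
theorem flag_retr [Nonempty α] {val : α → Prop} {adj bad : α → α → Prop} (key : α → α → α)
    (hsymm : ∀ x y, adj x y → adj y x) (hrefl : ∀ x, adj x x) (hirr : ∀ x, ¬ bad x x)
    (h1 : ∀ ρ ∈ Cl val adj, ∀ x ∈ ρ, ∀ y ∈ ρ, bad x y →
      val (key x y) ∧ ∀ z ∈ ρ, cut adj bad (key x y) z)
    (h2 : ∀ ρ ∈ Cl val adj, ∀ x ∈ ρ, ∀ y ∈ ρ, ∀ x' ∈ ρ, ∀ y' ∈ ρ, bad x y → bad x' y' →
      key x y = key x' y') :
    ∃ G a, Retr (Cl val adj) (Cl val (cut adj bad)) G a := by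
  have hz : ∀ ρ ∈ Cl val adj, ρ ∉ Cl val (cut adj bad) → ∃ x ∈ ρ, ∃ y ∈ ρ, bad x y := by
    intro ρ hρ hX
    by_contra hc
    push Not at hc
    exact hX ⟨hρ.1, fun x hx y hy => ⟨hρ.2 x hx y hy, hc x hx y hy, hc y hy x hx⟩⟩
  have hk : ∀ ρ : Finset α, ∃ a, ρ ∈ Cl val adj → ρ ∉ Cl val (cut adj bad) →
      ∃ x ∈ ρ, ∃ y ∈ ρ, bad x y ∧ a = key x y := by
    intro ρ
    by_cases h : ρ ∈ Cl val adj ∧ ρ ∉ Cl val (cut adj bad)
    · obtain ⟨x, hx, y, hy, hb⟩ := hz ρ h.1 h.2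
      exact ⟨key x y, fun _ _ => ⟨x, hx, y, hy, hb, rfl⟩⟩
    · exact ⟨Classical.arbitrary α, fun h3 h4 => absurd ⟨h3, h4⟩ h⟩
  choose a ha using hk
  let G : Finset α → Set (Finset α) := fun ρ => {η | η ∈ Cl val adj ∧
    ∃ x ∈ ρ, ∃ y ∈ ρ, bad x y ∧ ∀ z ∈ η, cut adj bad (key x y) z}
  have hins : ∀ ρ ∈ Cl val adj, ρ ∉ Cl val (cut adj bad) → ∀ η ∈ G ρ, val (a ρ) ∧
      (∀ z ∈ insert (a ρ) η, cut adj bad (a ρ) z) ∧
      ∃ x ∈ ρ, ∃ y ∈ ρ, bad x y ∧ a ρ = key x y := by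
    rintro ρ hρ hX η ⟨_, x, hx, y, hy, hb, g⟩
    obtain ⟨x', hx', y', hy', hb', e⟩ := ha ρ hρ hX
    refine ⟨e ▸ (h1 ρ hρ x' hx' y' hy' hb').1, fun z hz => ?_, x', hx', y', hy', hb', e⟩
    rcases mem_insert.1 hz with rfl | hz
    · exact ⟨hrefl _, hirr _, hirr _⟩
    · rw [e, h2 ρ hρ x' hx' y' hy' x hx y hy hb' hb]
      exact g z hz
  have hcl : ∀ (R : α → α → Prop), (∀ x y, cut adj bad x y → R x y ∧ R y x) → ∀ (c : α)
      (η : Finset α), η ∈ Cl val R → val c → (∀ z ∈ insert c η, cut adj bad c z) →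
      insert c η ∈ Cl val R := by
    intro R hR c η hη hc h
    refine ⟨fun x hx => ?_, fun x hx y hy => ?_⟩
    · rcases mem_insert.1 hx with rfl | hx
      · exact hc
      · exact hη.1 x hx
    · rcases mem_insert.1 hx with rfl | hx'
      · exact (hR _ _ (h y hy)).1
      · rcases mem_insert.1 hy with rfl | hy
        · exact (hR _ _ (h x hx)).2
        · exact hη.2 x hx' y hy
  refine ⟨G, a, ⟨by simp, by simp⟩, down_Cl _ _, down_Cl _ _,
    fun s hs => ⟨hs.1, fun x hx y hy => (hs.2 x hx y hy).1⟩, ?_, ?_, fun _ _ h => h.1, ?_, ?_, ?_⟩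
  · intro ρ hρ hX
    obtain ⟨x, hx, y, hy, hb⟩ := hz ρ hρ hX
    exact ⟨hρ, x, hx, y, hy, hb, (h1 ρ hρ x hx y hy hb).2⟩
  · rintro ρ η ⟨g1, x, hx, y, hy, hb, g⟩ t ht
    exact ⟨down_Cl _ _ η g1 t ht, x, hx, y, hy, hb, fun z hz => g z (ht hz)⟩
  · intro ρ hρ hX η hη
    obtain ⟨g1, g2, x, hx, y, hy, hb, e⟩ := hins ρ hρ hX η hη
    exact ⟨hcl adj (fun x y h => ⟨h.1, hsymm _ _ h.1⟩) _ η hη.1 g1 g2, x, hx, y, hy, hb,
      fun z hz => e ▸ g2 z hz⟩
  · intro ρ hρ hX η hη hηX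
    obtain ⟨g1, g2, -⟩ := hins ρ hρ hX η hη
    exact hcl _ (fun x y h => ⟨h, hsymm _ _ h.1, h.2.2, h.2.1⟩) _ η hηX g1 g2
  · rintro ρ _ ρ' h _ η ⟨g1, x, hx, y, hy, hb, g⟩
    exact ⟨g1, x, h hx, y, h hy, hb, g⟩

/-- The sets on the side `b` with a common neighbour on the other side. -/
def Dw (side : α → Bool) (r : α → α → Prop) (b : Bool) : Set (Finset α) :=
  {s | (∀ x ∈ s, side x = b) ∧ ∃ y, side y ≠ b ∧ ∀ x ∈ s, r x y}

theorem dw_transfer [Fintype α] {side : α → Bool} {r : α → α → Prop}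
    (hsymm : ∀ x y, r x y → r y x) (h0 : ∀ b, ∃ y, side y ≠ b) {k : ℕ}
    (hk : ∀ x, ∃ T : Finset α, T.card ≤ k ∧ ∀ y, r x y → y ∈ T) {b c : Bool} {q M : ℕ}
    (hq : 1 ≤ q) (h : Exp (Dw side r b) q M) : Exp (Dw side r c) q (cst2 (k + k * k) M) := by
  have : Nonempty α := ⟨(h0 true).choose⟩
  have hR : ∀ b, ∃ G a, Retr (Cyl side r (Dw side r)) (Dw side r b) G a := by
    intro b
    refine cyl_retr hsymm ?_ ?_ (fun _ _ h => h.1) b ?_ ?_
    · rintro c s ⟨h1, y, h2, h3⟩ t ht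
      exact ⟨fun x hx => h1 x (ht hx), y, h2, fun x hx => h3 x (ht hx)⟩
    · intro c
      obtain ⟨y, hy⟩ := h0 c
      exact ⟨by simp, y, hy, by simp⟩
    · intro c hc u hu y hy t ht
      exact ⟨fun x hx => (ht x hx).1, y, fun e => hc ((hu.1 y hy).symm.trans e),
        fun x hx => (ht x hx).2⟩
    · rintro c hc u ⟨_, y, h2, h3⟩ _
      exact ⟨y, bool_ne h2 (Ne.symm hc), fun x hx => hsymm _ _ (h3 x hx)⟩
  have hL : Bdd (Cyl side r (Dw side r)) (k + k * k) := by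
    choose T hT using hk
    intro v
    refine ⟨T v ∪ (T v).biUnion T, (card_union_le _ _).trans (Nat.add_le_add (hT v).1
      ((card_biUnion_le_card_mul _ _ k fun x _ => (hT x).1).trans
        (Nat.mul_le_mul_right _ (hT v).1))), fun s hs hv x hx => ?_⟩
    by_cases e : side v = side x
    · obtain ⟨t, ⟨_, y, _, h3⟩, h4⟩ := hs.2 (side x)
      exact mem_union_right _ (mem_biUnion.2 ⟨y, (hT v).2 y (h3 v (h4 v hv e)),
        (hT y).2 x (hsymm _ _ (h3 x (h4 x hx rfl)))⟩)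
    · exact mem_union_left _ ((hT v).2 x (hs.1 v hv x hx e))
  obtain ⟨G, a, H⟩ := hR b
  obtain ⟨G', a', H'⟩ := hR c
  exact H'.down hL (H.up hL hq h)

theorem exists_map_of_range {β : Type} (j : β ↪ α) {s : Finset α} (h : ∀ x ∈ s, ∃ y, j y = x) :
    ∃ t : Finset β, t.map j = s := by
  refine ⟨s.preimage j j.injective.injOn, ?_⟩
  ext x
  rw [mem_map]
  constructor
  · rintro ⟨y, hy, rfl⟩
    exact mem_preimage.1 hy
  · intro hx
    obtain ⟨y, rfl⟩ := h x hx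
    exact ⟨y, mem_preimage.2 hx, rfl⟩

/-- Duality: the two complexes of a relation of bounded degree expand together. -/
theorem dowker {A B : Type} [Fintype A] [Fintype B] [Nonempty A] [Nonempty B]
    (R : A → B → Prop) {k : ℕ} (hA : ∀ a, ∃ T : Finset B, T.card ≤ k ∧ ∀ b, R a b → b ∈ T)
    (hB : ∀ b, ∃ T : Finset A, T.card ≤ k ∧ ∀ a, R a b → a ∈ T) {q M : ℕ} (hq : 1 ≤ q)
    (h : Exp {t : Finset A | ∃ b, ∀ a ∈ t, R a b} q M) :
    Exp {t : Finset B | ∃ a, ∀ b ∈ t, R a b} q (cst2 (k + k * k) M) := by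
  let r : A ⊕ B → A ⊕ B → Prop := fun x y => ∃ a b, R a b ∧
    ((x = Sum.inl a ∧ y = Sum.inr b) ∨ (x = Sum.inr b ∧ y = Sum.inl a))
  have hl : ∀ a b, r (Sum.inl a) (Sum.inr b) ↔ R a b := fun a b => by simp [r]
  have hr : ∀ a b, r (Sum.inr b) (Sum.inl a) ↔ R a b := fun a b => by simp [r]
  have e1 : ∀ s, s ∈ Dw Sum.isLeft r true ↔
      ∃ t ∈ {t : Finset A | ∃ b, ∀ a ∈ t, R a b}, t.map Function.Embedding.inl = s := by
    intro s
    constructor
    · rintro ⟨h1, y, h2, h3⟩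
      obtain ⟨t, rfl⟩ := exists_map_of_range Function.Embedding.inl (s := s) fun x hx => by
        obtain ⟨a, rfl⟩ := Sum.isLeft_iff.1 (h1 x hx)
        exact ⟨a, rfl⟩
      rcases y with y | y
      · exact absurd rfl h2
      · exact ⟨t, ⟨y, fun a ha => (hl a y).1 (h3 _ (mem_map_of_mem _ ha))⟩, rfl⟩
    · rintro ⟨t, ⟨b, hb⟩, rfl⟩
      refine ⟨fun x hx => ?_, Sum.inr b, by simp, fun x hx => ?_⟩
      · obtain ⟨a, _, rfl⟩ := mem_map.1 hx
        rfl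
      · obtain ⟨a, ha, rfl⟩ := mem_map.1 hx
        exact (hl a b).2 (hb a ha)
  have e2 : ∀ s, s ∈ Dw Sum.isLeft r false ↔
      ∃ t ∈ {t : Finset B | ∃ a, ∀ b ∈ t, R a b}, t.map Function.Embedding.inr = s := by
    intro s
    constructor
    · rintro ⟨h1, y, h2, h3⟩
      obtain ⟨t, rfl⟩ := exists_map_of_range Function.Embedding.inr (s := s) fun x hx => by
        rcases x with x | x
        · exact absurd (h1 _ hx) (by simp)
        · exact ⟨x, rfl⟩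
      rcases y with y | y
      · exact ⟨t, ⟨y, fun b hb => (hr y b).1 (h3 _ (mem_map_of_mem _ hb))⟩, rfl⟩
      · exact absurd rfl h2
    · rintro ⟨t, ⟨a, ha⟩, rfl⟩
      refine ⟨fun x hx => ?_, Sum.inl a, by simp, fun x hx => ?_⟩
      · obtain ⟨b, _, rfl⟩ := mem_map.1 hx
        rfl
      · obtain ⟨b, hb, rfl⟩ := mem_map.1 hx
        exact (hr a b).2 (ha b hb)
  rw [← exp_map _ e2]
  rw [← exp_map _ e1] at h
  refine dw_transfer ?_ ?_ ?_ hq h
  · rintro x y ⟨a, b, h1, h2⟩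
    exact ⟨a, b, h1, h2.symm.imp And.symm And.symm⟩
  · rintro (_ | _)
    · exact ⟨Sum.inl (Classical.arbitrary A), by simp⟩
    · exact ⟨Sum.inr (Classical.arbitrary B), by simp⟩
  · rintro (a | b)
    · obtain ⟨T, h1, h2⟩ := hA a
      refine ⟨T.map Function.Embedding.inr, by rwa [card_map], ?_⟩
      rintro (y | y) hy
      · simp [r] at hy
      · exact mem_map_of_mem _ (h2 y ((hl a y).1 hy))
    · obtain ⟨T, h1, h2⟩ := hB b
      refine ⟨T.map Function.Embedding.inl, by rwa [card_map], ?_⟩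
      rintro (y | y) hy
      · exact mem_map_of_mem _ (h2 y ((hr y b).1 hy))
      · simp [r] at hy

end Vale.Agent.N067
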