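import Vale.Agent.N067.Cyl
import Vale.Agent.N067.Lower
import Mathlib.Combinatorics.SimpleGraph.Coloring.Vertex
import Mathlib.Combinatorics.SimpleGraph.Clique

/-!
# P067, second draw: splitting the faces of codimension one

Every face of codimension one is replaced by two copies with a lens between them, the top faces
around it are distributed among the two copies, and the result is subdivided.
-/

set_option autoImplicit false

open Finset

namespace Vale.Agent.N067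

open Vale.Agent.P067 Vale.Agent.P067.H610

attribute [local instance] Classical.propDecidable

section flag

variable {P : Type} {A : P → P → Prop}

/-- The complex of the cliques of a reflexive relation. -/
def flagCx (A : P → P → Prop) (hr : ∀ x, A x x) : AbstractSimplicialComplex P where
  faces := {s | s.Nonempty ∧ ∀ x ∈ s, ∀ y ∈ s, A x y}
  isRelLowerSet_faces := by
    rintro s ⟨h1, h2⟩
    exact ⟨h1, fun t hts ht => ⟨ht, fun x hx y hy => h2 x (hts hx) y (hts hy)⟩⟩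
  singleton_mem v := ⟨singleton_nonempty v, fun x hx y hy => by
    rw [mem_singleton.1 hx, mem_singleton.1 hy]; exact hr v⟩

theorem flag_adj {hr : ∀ x, A x x} {x y : P} (h : (skel (flagCx A hr)).Adj x y) : A x y :=
  h.2.2 x (mem_insert_self _ _) y (mem_insert_of_mem (mem_singleton_self _))

theorem flag_clique {hr : ∀ x, A x x} (s : Finset P) (hs : s.Nonempty)
    (h : (skel (flagCx A hr)).IsClique s) : s ∈ flagCx A hr := by
  refine ⟨hs, fun x hx y hy => ?_⟩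
  by_cases e : x = y
  · rw [e]
    exact hr y
  · exact flag_adj (h hx hy e)

theorem insert_clique (hr : ∀ x, A x x) (hs : ∀ x y, A x y → A y x) {c : Finset P} {x : P}
    (hc : ∀ x ∈ c, ∀ y ∈ c, A x y) (hx : ∀ y ∈ c, A x y) :
    ∀ y ∈ insert x c, ∀ z ∈ insert x c, A y z := by
  intro y hy z hz
  rcases mem_insert.1 hy with e | hy'
  · rcases mem_insert.1 hz with e' | hz'
    · rw [e, e']
      exact hr _
    · rw [e]
      exact hx z hz'
  · rcases mem_insert.1 hz with e' | hz'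
    · rw [e']
      exact hs _ _ (hx y hy')
    · exact hc y hy' z hz'

theorem flag_pure {hr : ∀ x, A x x} (hs : ∀ x y, A x y → A y x) {d : ℕ}
    (h1 : ∀ c : Finset P, (∀ x ∈ c, ∀ y ∈ c, A x y) → c.card ≤ d + 1)
    (h2 : ∀ c : Finset P, c.Nonempty → (∀ x ∈ c, ∀ y ∈ c, A x y) → c.card ≤ d →
      ∃ x, x ∉ c ∧ ∀ y ∈ c, A x y) : IsPure (flagCx A hr) d := by
  have key : ∀ j, ∀ s ∈ flagCx A hr, s.card + j = d + 1 →
      ∃ t ∈ flagCx A hr, t.card = d + 1 ∧ s ⊆ t := by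
    intro j
    induction j with
    | zero => exact fun s hs hc => ⟨s, hs, hc, subset_rfl⟩
    | succ j ih =>
      intro s h hc
      obtain ⟨x, hx1, hx2⟩ := h2 s h.1 h.2 (by omega)
      obtain ⟨t, ht, h3, h4⟩ := ih (insert x s) ⟨insert_nonempty _ _, insert_clique hr hs h.2 hx2⟩
        (by rw [card_insert_of_notMem hx1]; omega)
      exact ⟨t, ht, h3, (subset_insert _ _).trans h4⟩
  intro s h
  exact key (d + 1 - s.card) s h (by have := h1 s h.2; omega)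

theorem ridge_of_ext [Fintype P] {X : AbstractSimplicialComplex P} {d k : ℕ} (hd : 1 ≤ d)
    (h : ∀ c ∈ X, c.card = d →
      ∃ T : Finset P, T.card ≤ k ∧ ∀ x, x ∉ c → insert x c ∈ X → x ∈ T) :
    ridgeDegree X d ≤ k := by
  rw [ridge_le hd]
  intro s hs hc
  obtain ⟨T, h1, h2⟩ := h s hs hc
  rw [← card_image_of_injective _ Subtype.val_injective]
  refine le_trans (card_le_card (t := T.image fun x => insert x s) fun t ht => ?_)
    (card_image_le.trans h1)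
  obtain ⟨u, hu, e0⟩ := mem_image.1 ht
  have h3 : s ⊆ u.1 := (mem_filter.1 hu).2
  have h4 : s.card + 1 = u.1.card := by rw [hc, u.2.2]
  obtain ⟨x, hx, e⟩ := exists_eq_insert_iff.2 ⟨h3, h4⟩
  have h5 : insert x s ∈ X := by rw [e]; exact u.2.1
  exact mem_image.2 ⟨x, h2 x hx h5, e.trans e0⟩

theorem flag_ridge [Fintype P] {hr : ∀ x, A x x} {d k : ℕ} (hd : 1 ≤ d)
    (h : ∀ c : Finset P, (∀ x ∈ c, ∀ y ∈ c, A x y) → c.card = d →
      ∃ T : Finset P, T.card ≤ k ∧ ∀ x, x ∉ c → (∀ y ∈ c, A x y) → x ∈ T) :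
    ridgeDegree (flagCx A hr) d ≤ k := by
  refine ridge_of_ext hd fun c hc hcd => ?_
  obtain ⟨T, h1, h2⟩ := h c hc.2 hcd
  exact ⟨T, h1, fun x hx h3 => h2 x hx fun y hy =>
    h3.2 x (mem_insert_self _ _) y (mem_insert_of_mem hy)⟩

end flag

variable {V : Type}

/-- Sets with a tag. -/
abbrev WW (V : Type) : Type := Finset V × Option Bool

/-- The cells: faces, and two copies of every face with `d` vertices. -/
def val (X : AbstractSimplicialComplex V) (d : ℕ) (x : WW V) : Prop :=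
  x.1 ∈ X ∧ (x.2 ≠ none → x.1.card = d)

/-- The first order relation. -/
def lt0 (x y : WW V) : Prop := (x.2 = none ∧ x.1 ⊂ y.1) ∨ (x.2 ≠ none ∧ y.2 = none ∧ x.1 ⊆ y.1)

/-- Comparability in the first order. -/
def adj0 (x y : WW V) : Prop := x = y ∨ lt0 x y ∨ lt0 y x

/-- A copy and a top face on the wrong side. -/
def bad1 (sd : Finset V → Finset V → Bool) (x y : WW V) : Prop :=
  x.2 = some (!sd x.1 y.1) ∧ x.1 ⊂ y.1

/-- A lens and a top face. -/
def bad2 (d : ℕ) (x y : WW V) : Prop := x.2 = none ∧ x.1.card = d ∧ x.1 ⊂ y.1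

/-- Comparability in the final order. -/
def adj2 (d : ℕ) (sd : Finset V → Finset V → Bool) : WW V → WW V → Prop :=
  cut (cut adj0 (bad1 sd)) (bad2 d)

theorem adj0_symm (x y : WW V) (h : adj0 x y) : adj0 y x := h.imp Eq.symm Or.symm

theorem lt0_sub {x y : WW V} (h : lt0 x y) : x.1 ⊆ y.1 := h.elim (fun h => h.2.subset) (·.2.2)

theorem adj0_sub {x y : WW V} (h : adj0 x y) : x.1 ⊆ y.1 ∨ y.1 ⊆ x.1 := by
  rcases h with rfl | h | h
  · exact Or.inl subset_rfl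
  · exact Or.inl (lt0_sub h)
  · exact Or.inr (lt0_sub h)

theorem adj0_sub_of_card {x y : WW V} (h : adj0 x y) (hc : x.1.card ≤ y.1.card) : x.1 ⊆ y.1 :=
  (adj0_sub h).elim id fun h1 => (eq_of_subset_of_card_le h1 hc).ge

theorem cut_symm {α : Type} {adj bad : α → α → Prop} (hs : ∀ x y, adj x y → adj y x) (x y : α)
    (h : cut adj bad x y) : cut adj bad y x := ⟨hs _ _ h.1, h.2.2, h.2.1⟩

theorem adj2_symm (d : ℕ) (sd : Finset V → Finset V → Bool) (x y : WW V) (h : adj2 d sd x y) :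
    adj2 d sd y x := cut_symm (cut_symm adj0_symm) x y h

theorem adj1_refl (sd : Finset V → Finset V → Bool) (x : WW V) : cut adj0 (bad1 sd) x x :=
  ⟨Or.inl rfl, fun h => h.2.ne rfl, fun h => h.2.ne rfl⟩

theorem adj2_refl (d : ℕ) (sd : Finset V → Finset V → Bool) (x : WW V) : adj2 d sd x x :=
  ⟨adj1_refl sd x, fun h => h.2.2.ne rfl, fun h => h.2.2.ne rfl⟩

variable {X : AbstractSimplicialComplex V} {d : ℕ} {sd : Finset V → Finset V → Bool}

theorem retr1 : ∃ G a, Retr (Cl (val X d) adj0) (Cl (val X d) (cut adj0 (bad1 sd))) G a := by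
  have : Nonempty (WW V) := ⟨(∅, none)⟩
  refine flag_retr (fun x _ => (x.1, none)) adj0_symm (fun _ => Or.inl rfl)
    (fun x h => h.2.ne rfl) ?_ ?_
  · intro ρ hρ x hx y hy hb
    have hx2 : x.2 ≠ none := by rw [hb.1]; simp
    have hxd := (hρ.1 x hx).2 hx2
    refine ⟨⟨(hρ.1 x hx).1, fun h => absurd rfl h⟩, fun z hz => ⟨?_, fun h => ?_, fun h => ?_⟩⟩
    · rcases hρ.2 x hx z hz with rfl | (h | h) | (h | h)
      · exact Or.inr (Or.inr (Or.inr ⟨hx2, rfl, subset_rfl⟩))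
      · exact absurd h.1 hx2
      · rcases eq_or_ssubset_of_subset h.2.2 with e | e
        · exact Or.inl (Prod.ext e h.2.1.symm)
        · exact Or.inr (Or.inl (Or.inl ⟨rfl, e⟩))
      · exact Or.inr (Or.inr (Or.inl h))
      · exact absurd h.2.1 hx2
    · exact absurd h.1 (by simp)
    · have h1 := (hρ.1 z hz).2 (by rw [h.1]; simp)
      have h2 : z.1.card < x.1.card := card_lt_card h.2
      omega
  · intro ρ hρ x hx y _ x' hx' y' _ hb hb'
    have h1 := (hρ.1 x hx).2 (by rw [hb.1]; simp)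
    have h2 := (hρ.1 x' hx').2 (by rw [hb'.1]; simp)
    rw [eq_of_subset_of_card_le (adj0_sub_of_card (hρ.2 x hx x' hx') (by omega)) (by omega)]

theorem retr2 (hc : ∀ s ∈ X, s.card ≤ d + 1) : ∃ G a,
    Retr (Cl (val X d) (cut adj0 (bad1 sd))) (Cl (val X d) (adj2 d sd)) G a := by
  have : Nonempty (WW V) := ⟨(∅, none)⟩
  have hcard : ∀ x y : WW V, val X d y → bad2 d x y → y.1.card = d + 1 := by
    intro x y hy hb
    have h1 := card_lt_card hb.2.2
    have h2 := hc _ hy.1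
    have h3 := hb.2.1
    omega
  refine flag_retr (fun x y => (x.1, some (sd x.1 y.1))) (cut_symm adj0_symm) (adj1_refl sd)
    (fun x h => h.2.2.ne rfl) ?_ ?_
  · intro ρ hρ x hx y hy hb
    have hy1 := hcard x y (hρ.1 y hy) hb
    have hxd := hb.2.1
    refine ⟨⟨(hρ.1 x hx).1, fun _ => hxd⟩, fun z hz =>
      ⟨⟨?_, fun h => ?_, fun h => ?_⟩, fun h => ?_, fun h => ?_⟩⟩
    · rcases (hρ.2 x hx z hz).1 with rfl | (h | h) | (h | h)
      · exact Or.inr (Or.inl (Or.inr ⟨by simp, hb.1, subset_rfl⟩))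
      · refine Or.inr (Or.inl (Or.inr ⟨by simp, ?_, h.2.subset⟩))
        by_contra h1
        have h2 := (hρ.1 z hz).2 h1
        have h3 := card_lt_card h.2
        omega
      · exact absurd hb.1 h.1
      · exact Or.inr (Or.inr (Or.inl h))
      · have h2 := (hρ.1 z hz).2 h.1
        have e : z.1 = x.1 := eq_of_subset_of_card_le h.2.2 (by omega)
        have h3 := (hρ.2 z hz y hy).2.1
        obtain ⟨i, hi⟩ := Option.ne_none_iff_exists'.1 h.1
        refine Or.inl (Prod.ext e.symm ?_)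
        rw [hi]
        by_contra h4
        refine h3 ⟨?_, e ▸ hb.2.2⟩
        rw [hi, e]
        revert h4
        cases i <;> cases sd x.1 y.1 <;> simp
    · have h1 : x.1.card < z.1.card := card_lt_card h.2
      have h2 := hc _ (hρ.1 z hz).1
      have e : z.1 = y.1 := eq_of_subset_of_card_le
        (adj0_sub_of_card (hρ.2 z hz y hy).1 (by omega)) (by omega)
      have h3 := h.1
      simp only [e] at h3
      revert h3
      cases sd x.1 y.1 <;> simp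
    · have h1 := (hρ.1 z hz).2 (by rw [h.1]; simp)
      have h2 : z.1.card < x.1.card := card_lt_card h.2
      omega
    · exact absurd h.1 (by simp)
    · have h1 := h.2.1
      have h2 : z.1.card < x.1.card := card_lt_card h.2.2
      omega
  · intro ρ hρ x hx y hy x' hx' y' hy' hb hb'
    have h1 := hcard x y (hρ.1 y hy) hb
    have h2 := hcard x' y' (hρ.1 y' hy') hb'
    have h3 := hb.2.1
    have h4 := hb'.2.1
    rw [eq_of_subset_of_card_le (adj0_sub_of_card (hρ.2 x hx x' hx').1 (by omega)) (by omega),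
      eq_of_subset_of_card_le (adj0_sub_of_card (hρ.2 y hy y' hy').1 (by omega)) (by omega)]

/-- The cylinder between `X` and its first subdivision. -/
def ZZ (X : AbstractSimplicialComplex V) (d : ℕ) : Set (Finset (V ⊕ WW V)) :=
  {s | (∃ t ∈ KX X, ∀ v, Sum.inl v ∈ s → v ∈ t) ∧ (∀ y, Sum.inr y ∈ s → val X d y) ∧
    (∀ y y', Sum.inr y ∈ s → Sum.inr y' ∈ s → adj0 y y') ∧
    ∀ v y, Sum.inl v ∈ s → Sum.inr y ∈ s → v ∈ y.1}

theorem down_ZZ : DownClosed (ZZ X d) := by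
  rintro s ⟨⟨t, h1, h2⟩, h3, h4, h5⟩ u hu
  exact ⟨⟨t, h1, fun v hv => h2 v (hu hv)⟩, fun y hy => h3 y (hu hy),
    fun y y' hy hy' => h4 y y' (hu hy) (hu hy'), fun v y hv hy => h5 v y (hu hv) (hu hy)⟩

theorem empty_ZZ : ∅ ∈ ZZ X d := ⟨⟨∅, Or.inr rfl, by simp⟩, by simp, by simp, by simp⟩

theorem retrL [Nonempty V] :
    ∃ G a, Retr (ZZ X d) {s | s ∈ ZZ X d ∧ ∀ y, Sum.inr y ∉ s} G a := by
  have hz : ∀ ρ ∈ ZZ X d, ρ ∉ {s | s ∈ ZZ X d ∧ ∀ y, Sum.inr y ∉ s} → ∃ y, Sum.inr y ∈ ρ := by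
    intro ρ hρ hX
    by_contra hc
    push Not at hc
    exact hX ⟨hρ, hc⟩
  have key : ∀ ρ : Finset (V ⊕ WW V), ∃ v : V, ρ ∈ ZZ X d → ∀ y, Sum.inr y ∈ ρ → v ∈ y.1 := by
    intro ρ
    by_cases h : ρ ∈ ZZ X d ∧ ρ.toRight.Nonempty
    · obtain ⟨y, hy, hmin⟩ := exists_min_image ρ.toRight (fun y => y.1.card) h.2
      obtain ⟨v, hv⟩ := face_nonempty (h.1.2.1 y (mem_toRight.1 hy)).1
      exact ⟨v, fun _ z hz => adj0_sub_of_card (h.1.2.2.1 y z (mem_toRight.1 hy) hz)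
        (hmin z (mem_toRight.2 hz)) hv⟩
    · exact ⟨Classical.arbitrary V, fun h1 y hy => absurd ⟨h1, y, mem_toRight.2 hy⟩ h⟩
  choose a ha using key
  let G : Finset (V ⊕ WW V) → Set (Finset (V ⊕ WW V)) := fun ρ => {η | η ∈ ZZ X d ∧
    (∀ y, Sum.inr y ∈ η → Sum.inr y ∈ ρ) ∧ ∃ z, Sum.inr z ∈ ρ ∧ ∀ v, Sum.inl v ∈ η → v ∈ z.1}
  have hcone : ∀ ρ ∈ ZZ X d, ∀ η ∈ G ρ, ∀ η' : Finset (V ⊕ WW V),
      (∀ x, x ∈ η' ↔ x = Sum.inl (a ρ) ∨ x ∈ η) → η' ∈ G ρ := by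
    rintro ρ hρ η ⟨⟨-, g1, g2, g3⟩, g4, z, g5, g6⟩ η' h
    have hr : ∀ y, Sum.inr y ∈ η' → Sum.inr y ∈ η := fun y hy => by simpa using (h _).1 hy
    have hl : ∀ v, Sum.inl v ∈ η' → v = a ρ ∨ Sum.inl v ∈ η := fun v hv => by
      simpa using (h _).1 hv
    have h1 : ∀ v, Sum.inl v ∈ η' → v ∈ z.1 := fun v hv =>
      (hl v hv).elim (fun e => e ▸ ha ρ hρ z g5) (g6 v)
    exact ⟨⟨⟨z.1, Or.inl (hρ.2.1 z g5).1, h1⟩, fun y hy => g1 y (hr y hy),
      fun y y' hy hy' => g2 y y' (hr y hy) (hr y' hy'), fun v y hv hy => (hl v hv).elim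
        (fun e => e ▸ ha ρ hρ y (g4 y (hr y hy))) (fun hv => g3 v y hv (hr y hy))⟩,
      fun y hy => g4 y (hr y hy), z, g5, h1⟩
  refine ⟨G, fun ρ => Sum.inl (a ρ), ⟨empty_ZZ, by simp⟩, down_ZZ,
    fun s hs t ht => ⟨down_ZZ s hs.1 t ht, fun y hy => hs.2 y (ht hy)⟩, fun _ h => h.1, ?_, ?_,
    fun _ _ h => h.1, fun ρ hρ _ η hη => hcone ρ hρ η hη _ fun _ => mem_ins, ?_, ?_⟩
  · intro ρ hρ hX
    obtain ⟨z, h⟩ := hz ρ hρ hX
    exact ⟨hρ, fun _ h => h, z, h, fun v hv => hρ.2.2.2 v z hv h⟩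
  · rintro ρ η ⟨g1, g2, z, g3, g4⟩ t ht
    exact ⟨down_ZZ η g1 t ht, fun y hy => g2 y (ht hy), z, g3, fun v hv => g4 v (ht hv)⟩
  · intro ρ hρ _ η hη hX
    refine ⟨(hcone ρ hρ η hη _ fun _ => mem_ins).1, fun y hy => hX.2 y ?_⟩
    simpa using mem_ins.1 hy
  · rintro ρ _ ρ' h _ η ⟨g1, g2, z, g3, g4⟩
    exact ⟨g1, fun y hy => h (g2 y hy), z, h g3, g4⟩

theorem retrR : ∃ G a, Retr (ZZ X d) {s | s ∈ ZZ X d ∧ ∀ v, Sum.inl v ∉ s} G a := by
  have hz : ∀ ρ ∈ ZZ X d, ρ ∉ {s | s ∈ ZZ X d ∧ ∀ v, Sum.inl v ∉ s} → ρ.toLeft ∈ X := by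
    intro ρ hρ hX
    obtain ⟨t, h1, h2⟩ := hρ.1
    refine mem_of_KX (down_KX X t h1 _ fun v hv => h2 v (mem_toLeft.1 hv)) ?_
    by_contra hc
    exact hX ⟨hρ, fun v hv => hc ⟨v, mem_toLeft.2 hv⟩⟩
  let G : Finset (V ⊕ WW V) → Set (Finset (V ⊕ WW V)) := fun ρ => {η | η ∈ ZZ X d ∧
    (∀ v, Sum.inl v ∈ η → Sum.inl v ∈ ρ) ∧
      ∀ y, Sum.inr y ∈ η → Sum.inr y ∈ ρ ∨ (y.2 = none ∧ y.1 ⊆ ρ.toLeft)}
  have hcone : ∀ ρ ∈ ZZ X d, ρ.toLeft ∈ X → ∀ η ∈ G ρ, ∀ η' : Finset (V ⊕ WW V),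
      (∀ x, x ∈ η' ↔ x = Sum.inr (ρ.toLeft, none) ∨ x ∈ η) → η' ∈ G ρ := by
    rintro ρ hρ hX η ⟨⟨⟨t, g0, g0'⟩, g1, g2, g3⟩, g4, g5⟩ η' h
    have hl : ∀ v, Sum.inl v ∈ η' → Sum.inl v ∈ η := fun v hv => by simpa using (h _).1 hv
    have hr : ∀ y, Sum.inr y ∈ η' → y = (ρ.toLeft, none) ∨ Sum.inr y ∈ η := fun y hy => by
      simpa using (h _).1 hy
    have h1 : ∀ y, Sum.inr y ∈ η → adj0 (ρ.toLeft, none) y := by
      intro y hy
      rcases g5 y hy with h2 | h2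
      · have h3 : ρ.toLeft ⊆ y.1 := fun v hv => hρ.2.2.2 v y (mem_toLeft.1 hv) h2
        rcases eq_or_ssubset_of_subset h3 with e | e
        · by_cases h4 : y.2 = none
          · exact Or.inl (Prod.ext e h4.symm)
          · exact Or.inr (Or.inr (Or.inr ⟨h4, rfl, e.ge⟩))
        · exact Or.inr (Or.inl (Or.inl ⟨rfl, e⟩))
      · rcases eq_or_ssubset_of_subset h2.2 with e | e
        · exact Or.inl (Prod.ext e.symm h2.1.symm)
        · exact Or.inr (Or.inr (Or.inl ⟨h2.1, e⟩))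
    refine ⟨⟨⟨t, g0, fun v hv => g0' v (hl v hv)⟩, fun y hy => ?_, fun y y' hy hy' => ?_,
      fun v y hv hy => ?_⟩, fun v hv => g4 v (hl v hv), fun y hy => ?_⟩
    · rcases hr y hy with rfl | hy
      · exact ⟨hX, fun h => absurd rfl h⟩
      · exact g1 y hy
    · rcases hr y hy with rfl | hy
      · rcases hr y' hy' with rfl | hy'
        · exact Or.inl rfl
        · exact h1 y' hy'
      · rcases hr y' hy' with rfl | hy'
        · exact adj0_symm _ _ (h1 y hy)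
        · exact g2 y y' hy hy'
    · rcases hr y hy with rfl | hy
      · exact mem_toLeft.2 (g4 v (hl v hv))
      · exact g3 v y (hl v hv) hy
    · rcases hr y hy with rfl | hy
      · exact Or.inr ⟨rfl, subset_rfl⟩
      · exact g5 y hy
  refine ⟨G, fun ρ => Sum.inr (ρ.toLeft, none), ⟨empty_ZZ, by simp⟩, down_ZZ,
    fun s hs t ht => ⟨down_ZZ s hs.1 t ht, fun y hy => hs.2 y (ht hy)⟩, fun _ h => h.1,
    fun ρ hρ _ => ⟨hρ, fun _ h => h, fun _ h => Or.inl h⟩, ?_, fun _ _ h => h.1,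
    fun ρ hρ hX η hη => hcone ρ hρ (hz ρ hρ hX) η hη _ fun _ => mem_ins, ?_, ?_⟩
  · rintro ρ η ⟨g1, g2, g3⟩ t ht
    exact ⟨down_ZZ η g1 t ht, fun y hy => g2 y (ht hy), fun v hv => g3 v (ht hv)⟩
  · intro ρ hρ hX η hη hηX
    refine ⟨(hcone ρ hρ (hz ρ hρ hX) η hη _ fun _ => mem_ins).1, fun y hy => hηX.2 y ?_⟩
    simpa using mem_ins.1 hy
  · rintro ρ _ ρ' h _ η ⟨g1, g2, g3⟩
    exact ⟨g1, fun y hy => h (g2 y hy), fun y hy => (g3 y hy).imp (fun h1 => h h1) fun h1 =>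
      ⟨h1.1, fun v hv => mem_toLeft.2 (h (mem_toLeft.1 (h1.2 hv)))⟩⟩

theorem card_box {T : Finset V} {L : ℕ} (h : T.card ≤ L) :
    (T.powerset ×ˢ (univ : Finset (Option Bool))).card ≤ 2 ^ L * 3 := by
  rw [card_product, card_powerset]
  exact Nat.mul_le_mul (Nat.pow_le_pow_right (by norm_num) h) (by simp)

theorem bdd_ZZ {L : ℕ} (hL : Bdd (KX X) L) : Bdd (ZZ X d) (L + 2 ^ L * 3) := by
  have key : ∀ (v : V) (x : V ⊕ WW V), (x = Sum.inl v ∨ ∃ z, x = Sum.inr z ∧ v ∈ z.1) →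
      ∃ T : Finset (V ⊕ WW V), T.card ≤ L + 2 ^ L * 3 ∧ ∀ s ∈ ZZ X d, x ∈ s → s ⊆ T := by
    intro v x hx
    obtain ⟨T, h1, h2⟩ := hL v
    refine ⟨T.disjSum (T.powerset ×ˢ univ), ?_, ?_⟩
    · rw [card_disjSum]
      exact Nat.add_le_add h1 (card_box h1)
    · rintro s ⟨⟨t, g0, g0'⟩, g1, g2, g3⟩ hs (w | y) hw
      · rw [inl_mem_disjSum]
        rcases hx with rfl | ⟨z, rfl, hz⟩
        · exact h2 t g0 (g0' v hs) (g0' w hw)
        · exact h2 _ (Or.inl (g1 z hs).1) hz (g3 w z hw hs)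
      · rw [inr_mem_disjSum, mem_product, mem_powerset]
        refine ⟨?_, mem_univ _⟩
        rcases hx with rfl | ⟨z, rfl, hz⟩
        · exact h2 _ (Or.inl (g1 y hw).1) (g3 v y hs hw)
        · rcases adj0_sub (g2 z y hs hw) with h | h
          · exact h2 _ (Or.inl (g1 y hw).1) (h hz)
          · exact h.trans (h2 _ (Or.inl (g1 z hs).1) hz)
  rintro (v | z)
  · exact key v _ (Or.inl rfl)
  · rcases z.1.eq_empty_or_nonempty with h | ⟨v, hv⟩
    · exact ⟨∅, Nat.zero_le _, fun s hs hz =>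
        absurd h (face_nonempty (hs.2.1 z hz).1).ne_empty⟩
    · exact key v _ (Or.inr ⟨z, rfl, hv⟩)

theorem bdd_Cl {L : ℕ} (hL : Bdd (KX X) L) : Bdd (Cl (val X d) adj0) (2 ^ L * 3) := by
  intro z
  rcases z.1.eq_empty_or_nonempty with h | ⟨v, hv⟩
  · exact ⟨∅, Nat.zero_le _, fun s hs hz => absurd h (face_nonempty (hs.1 z hz).1).ne_empty⟩
  · obtain ⟨T, h1, h2⟩ := hL v
    refine ⟨T.powerset ×ˢ univ, card_box h1, fun s hs hz y hy => ?_⟩
    rw [mem_product, mem_powerset]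
    refine ⟨?_, mem_univ _⟩
    rcases adj0_sub (hs.2 z hz y hy) with h | h
    · exact h2 _ (Or.inl (hs.1 y hy).1) (h hv)
    · exact h.trans (h2 _ (Or.inl (hs.1 z hz).1) hv)

/-- The constant after the four retractions. -/
def cst4 (L M : ℕ) : ℕ :=
  cst2 (L + 2 ^ L * 3) M * (2 ^ L * 3 * 2 ^ (2 ^ L * 3) + 1) * (2 ^ L * 3 * 2 ^ (2 ^ L * 3) + 1)

theorem exp_split [Fintype V] [Nonempty V] (hc : ∀ s ∈ X, s.card ≤ d + 1) {L q M : ℕ}
    (hL : Bdd (KX X) L) (hq : 1 ≤ q) (h : Exp (KX X) q M) :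
    Exp (Cl (val X d) (adj2 d sd)) q (cst4 L M) := by
  obtain ⟨G1, a1, H1⟩ := retrL (X := X) (d := d)
  obtain ⟨G2, a2, H2⟩ := retrR (X := X) (d := d)
  obtain ⟨G3, a3, H3⟩ := retr1 (X := X) (d := d) (sd := sd)
  obtain ⟨G4, a4, H4⟩ := retr2 (sd := sd) hc
  have e1 : ∀ s, s ∈ {s | s ∈ ZZ X d ∧ ∀ y, Sum.inr y ∉ s} ↔
      ∃ t ∈ KX X, t.map Function.Embedding.inl = s := by
    intro s
    constructor
    · rintro ⟨⟨⟨t, h1, h2⟩, -⟩, h3⟩
      obtain ⟨u, rfl⟩ := exists_map_of_range Function.Embedding.inl (s := s) (by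
        rintro (x | x) hx
        · exact ⟨x, rfl⟩
        · exact absurd hx (h3 x))
      exact ⟨u, down_KX X t h1 u fun v hv => h2 v (mem_map_of_mem _ hv), rfl⟩
    · rintro ⟨t, ht, rfl⟩
      exact ⟨⟨⟨t, ht, by simp⟩, by simp, by simp, by simp⟩, by simp⟩
  have e2 : ∀ s, s ∈ {s | s ∈ ZZ X d ∧ ∀ v, Sum.inl v ∉ s} ↔
      ∃ t ∈ Cl (val X d) adj0, t.map Function.Embedding.inr = s := by
    intro s
    constructor
    · rintro ⟨⟨-, h1, h2, -⟩, h3⟩
      obtain ⟨u, rfl⟩ := exists_map_of_range Function.Embedding.inr (s := s) (by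
        rintro (x | x) hx
        · exact absurd hx (h3 x)
        · exact ⟨x, rfl⟩)
      exact ⟨u, ⟨fun x hx => h1 x (mem_map_of_mem _ hx), fun x hx y hy =>
        h2 x y (mem_map_of_mem _ hx) (mem_map_of_mem _ hy)⟩, rfl⟩
    · rintro ⟨t, ht, rfl⟩
      have h1 : ∀ y, Sum.inr y ∈ t.map (Function.Embedding.inr (α := V)) → y ∈ t := by simp
      exact ⟨⟨⟨∅, Or.inr rfl, by simp⟩, fun y hy => ht.1 y (h1 y hy),
        fun y y' hy hy' => ht.2 y (h1 y hy) y' (h1 y' hy'), by simp⟩, by simp⟩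
  have h1 := (exp_map _ e2 _ _).1
    (H2.down (bdd_ZZ hL) (H1.up (bdd_ZZ hL) hq ((exp_map _ e1 _ _).2 h)))
  exact H4.down ((bdd_Cl hL).mono H3.sub) (H3.down (bdd_Cl hL) h1)

end Vale.Agent.N067
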