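import Vale.Agent.N067.Ridge
import Vale.Agent.N067.Cayley

/-!
# P067, second draw: clique complexes with at most three top faces at every face of codimension one
-/

set_option autoImplicit false

open Finset

namespace Vale.Agent.N067

open Vale.Agent.P067 Vale.Agent.P067.H610

attribute [local instance] Classical.propDecidable

variable {V : Type}

/-- The rank of a cell. -/
noncomputable def rk (d : ℕ) (x : WW V) : ℕ :=
  if x.2 = none then (if x.1.card < d then x.1.card else d + 1) else d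

/-- The final order. -/
def lt2 (d : ℕ) (sd : Finset V → Finset V → Bool) (x y : WW V) : Prop :=
  (x.2 = none ∧ x.1.card < d ∧ x.1 ⊂ y.1) ∨
    (x.2 ≠ none ∧ y.2 = none ∧ (x.1 = y.1 ∨ (x.1 ⊂ y.1 ∧ x.2 = some (sd x.1 y.1))))

variable {X : AbstractSimplicialComplex V} {d : ℕ} {sd : Finset V → Finset V → Bool}

theorem lt2_sub {x y : WW V} (h : lt2 d sd x y) : x.1 ⊆ y.1 := by
  rcases h with h | ⟨-, -, h | h⟩
  · exact h.2.2.subset
  · exact h.le
  · exact h.1.subset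

theorem adj2_of_lt2 {x y : WW V} (h : lt2 d sd x y) : adj2 d sd x y := by
  have h0 : ¬ y.1 ⊂ x.1 := fun h1 => h1.not_subset (lt2_sub h)
  refine ⟨⟨?_, fun h1 => ?_, fun h1 => h0 h1.2⟩, fun h1 => ?_, fun h1 => h0 h1.2.2⟩
  · rcases h with h | h
    · exact Or.inr (Or.inl (Or.inl ⟨h.1, h.2.2⟩))
    · exact Or.inr (Or.inl (Or.inr ⟨h.1, h.2.1, lt2_sub (d := d) (Or.inr h)⟩))
  · rcases h with h | ⟨-, -, h | h⟩
    · have h2 := h1.1
      rw [h.1] at h2
      exact absurd h2 (by simp)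
    · exact h1.2.ne h
    · have h2 := h1.1
      rw [h.2] at h2
      revert h2
      cases sd x.1 y.1 <;> simp
  · rcases h with h | h
    · have := h1.2.1
      have := h.2.1
      omega
    · exact h.1 h1.1

theorem lt2_of_lt0 (hc : ∀ s ∈ X, s.card ≤ d + 1) {x y : WW V} (hy : val X d y) (h : lt0 x y)
    (h1 : ¬ bad1 sd x y) (h2 : ¬ bad2 d x y) : lt2 d sd x y := by
  rcases h with h | h
  · refine Or.inl ⟨h.1, ?_, h.2⟩
    have h3 := card_lt_card h.2
    have h4 := hc _ hy.1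
    have h5 : x.1.card ≠ d := fun e => h2 ⟨h.1, e, h.2⟩
    omega
  · refine Or.inr ⟨h.1, h.2.1, (eq_or_ssubset_of_subset h.2.2).imp id fun h3 => ⟨h3, ?_⟩⟩
    obtain ⟨i, hi⟩ := Option.ne_none_iff_exists'.1 h.1
    by_contra h4
    refine h1 ⟨?_, h3⟩
    rw [hi] at h4 ⊢
    revert h4
    cases i <;> cases sd x.1 y.1 <;> simp

theorem rk_lt {x y : WW V} (hx : val X d x) (h : lt2 d sd x y) : rk d x < rk d y := by
  unfold rk
  rcases h with h | h
  · have h1 := card_lt_card h.2.2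
    have h2 := h.2.1
    rw [if_pos h.1, if_pos h2]
    split_ifs <;> omega
  · have h1 := card_le_card (lt2_sub (sd := sd) (d := d) (Or.inr h))
    have h2 := hx.2 h.1
    rw [if_neg h.1, if_pos h.2.1, if_neg (by omega)]
    omega

theorem lt2_of_rk (hc : ∀ s ∈ X, s.card ≤ d + 1) {x y : WW V} (hx : val X d x) (hy : val X d y)
    (h : adj2 d sd x y) (hr : rk d x ≤ rk d y) : x = y ∨ lt2 d sd x y := by
  rcases h.1.1 with e | e | e
  · exact Or.inl e
  · exact Or.inr (lt2_of_lt0 hc hy e h.1.2.1 h.2.1)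
  · have := rk_lt hy (lt2_of_lt0 hc hx e h.1.2.2 h.2.2)
    omega

theorem eq_of_rk (hc : ∀ s ∈ X, s.card ≤ d + 1) {x y : WW V} (hx : val X d x) (hy : val X d y)
    (h : adj2 d sd x y) (hr : rk d x = rk d y) : x = y :=
  (lt2_of_rk hc hx hy h hr.le).resolve_right fun h1 => by
    have := rk_lt hx h1
    omega

theorem lt2_of_rk_lt (hc : ∀ s ∈ X, s.card ≤ d + 1) {x y : WW V} (hx : val X d x)
    (hy : val X d y) (h : adj2 d sd x y) (hr : rk d x < rk d y) : lt2 d sd x y :=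
  (lt2_of_rk hc hx hy h hr.le).resolve_left fun e => by
    rw [e] at hr
    omega

theorem rk_spec {x : WW V} (hx : val X d x) :
    (x.2 = none ∧ x.1.card < d ∧ rk d x = x.1.card ∧ 1 ≤ x.1.card) ∨
      (x.2 ≠ none ∧ x.1.card = d ∧ rk d x = d) ∨ (x.2 = none ∧ d ≤ x.1.card ∧ rk d x = d + 1) := by
  unfold rk
  by_cases h : x.2 = none
  · by_cases h1 : x.1.card < d
    · exact Or.inl ⟨h, h1, by rw [if_pos h, if_pos h1], card_pos.2 (face_nonempty hx.1)⟩
    · exact Or.inr (Or.inr ⟨h, by omega, by rw [if_pos h, if_neg h1]⟩)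
  · exact Or.inr (Or.inl ⟨h, hx.2 h, by rw [if_neg h]⟩)

/-- The cells. -/
abbrev PT (X : AbstractSimplicialComplex V) (d : ℕ) : Type := {x : WW V // val X d x}

/-- Comparability of cells. -/
def AA (X : AbstractSimplicialComplex V) (d : ℕ) (sd : Finset V → Finset V → Bool)
    (x y : PT X d) : Prop := adj2 d sd x.1 y.1

theorem rk_mem (hd : 1 ≤ d) (x : PT X d) : rk d x.1 ∈ Icc 1 (d + 1) := by
  rw [mem_Icc]
  rcases rk_spec x.2 with h | h | h <;> omega

theorem card_image_rk (hc : ∀ s ∈ X, s.card ≤ d + 1) {c : Finset (PT X d)}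
    (h : ∀ x ∈ c, ∀ y ∈ c, AA X d sd x y) : (c.image fun x => rk d x.1).card = c.card :=
  card_image_of_injOn fun x hx y hy e => Subtype.ext (eq_of_rk hc x.2 y.2 (h x hx y hy) e)

theorem image_rk_sub (hd : 1 ≤ d) (c : Finset (PT X d)) :
    (c.image fun x => rk d x.1) ⊆ Icc 1 (d + 1) := fun r hr => by
  obtain ⟨x, _, rfl⟩ := mem_image.1 hr
  exact rk_mem hd x

theorem exists_missing (hd : 1 ≤ d) (hc : ∀ s ∈ X, s.card ≤ d + 1) {c : Finset (PT X d)}
    (h : ∀ x ∈ c, ∀ y ∈ c, AA X d sd x y) (hcd : c.card ≤ d) :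
    ∃ r, 1 ≤ r ∧ r ≤ d + 1 ∧ ∀ x ∈ c, rk d x.1 ≠ r := by
  obtain ⟨r, h1, h2⟩ := exists_mem_notMem_of_card_lt_card
    (s := c.image fun x => rk d x.1) (t := Icc 1 (d + 1)) (by
      rw [card_image_rk hc h, Nat.card_Icc]; omega)
  exact ⟨r, (mem_Icc.1 h1).1, (mem_Icc.1 h1).2, fun x hx e => h2 (mem_image.2 ⟨x, hx, e⟩)⟩

/-- The largest support below the rank `r`. -/
theorem exists_lo {c : Finset (PT X d)} (h : ∀ x ∈ c, ∀ y ∈ c, AA X d sd x y) {r : ℕ}
    (h1 : 1 ≤ r) (h2 : r ≤ d) : ∃ lo : Finset V, lo.card < r ∧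
      (∀ x ∈ c, rk d x.1 < r → x.1.1 ⊆ lo) ∧ ∀ x ∈ c, r ≤ rk d x.1 → lo ⊆ x.1.1 := by
  rcases (c.filter fun x => rk d x.1 < r).eq_empty_or_nonempty with h3 | h3
  · refine ⟨∅, h1, fun x hx hr => ?_, fun _ _ _ => empty_subset _⟩
    exact absurd hr (filter_eq_empty_iff.1 h3 hx)
  · obtain ⟨y, hy, hmax⟩ := exists_max_image _ (fun x : PT X d => x.1.1.card) h3
    obtain ⟨hy1, hy2⟩ := mem_filter.1 hy
    refine ⟨y.1.1, ?_, fun x hx hr =>
      adj0_sub_of_card (h x hx y hy1).1.1 (hmax x (mem_filter.2 ⟨hx, hr⟩)), fun x hx hr =>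
      adj0_sub_of_card (h y hy1 x hx).1.1 ?_⟩
    · rcases rk_spec y.2 with h | h | h <;> omega
    · rcases rk_spec y.2 with h | h | h <;> rcases rk_spec x.2 with h' | h' | h' <;> omega

theorem exists_ext (hd : 1 ≤ d) (hP : IsPure X d) (hc : ∀ s ∈ X, s.card ≤ d + 1)
    (c : Finset (PT X d)) (hne : c.Nonempty) (h : ∀ x ∈ c, ∀ y ∈ c, AA X d sd x y)
    (hcd : c.card ≤ d) : ∃ x, x ∉ c ∧ ∀ y ∈ c, AA X d sd x y := by
  by_cases htop : ∃ y ∈ c, rk d y.1 = d + 1
  · obtain ⟨y, hy, hyr⟩ := htop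
    obtain ⟨r, h1, h2, h3⟩ := exists_missing hd hc h hcd
    have h4 : r ≤ d := by have := h3 y hy; omega
    obtain ⟨lo, l1, l2, l3⟩ := exists_lo h h1 h4
    obtain ⟨z, hz, hmin⟩ := exists_min_image (c.filter fun x => r < rk d x.1)
      (fun x : PT X d => x.1.1.card) ⟨y, mem_filter.2 ⟨hy, by omega⟩⟩
    obtain ⟨hz1, hz2⟩ := mem_filter.1 hz
    obtain ⟨u, u1, u2, u3⟩ := exists_subsuperset_card_eq (n := r) (l3 z hz1 hz2.le) l1.le (by
      rcases rk_spec z.2 with h | h | h <;> omega)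
    have huX : u ∈ X := face_mono z.2.1 u2 (card_pos.1 (by omega))
    have hlow : ∀ w ∈ c, rk d w.1 < r → w.1.2 = none ∧ w.1.1.card < d ∧ w.1.1 ⊂ u := by
      intro w hw hr
      have h5 : w.1.2 = none ∧ w.1.1.card < r := by
        rcases rk_spec w.2 with h | h | h
        · exact ⟨h.1, by omega⟩
        · omega
        · omega
      exact ⟨h5.1, by omega, ((l2 w hw hr).trans u1).ssubset_of_ne fun e => by
        rw [e] at h5; omega⟩
    have hup : ∀ w ∈ c, r < rk d w.1 → u ⊆ w.1.1 := fun w hw hr => u2.trans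
      (adj0_sub_of_card (h z hz1 w hw).1.1 (hmin w (mem_filter.2 ⟨hw, hr⟩)))
    rcases h4.eq_or_lt with e | e
    · refine ⟨⟨(u, some (sd u y.1.1)), huX, fun _ => u3.trans e⟩, fun hx => h3 _ hx ?_,
        fun w hw => ?_⟩
      · simp [rk, e]
      · rcases (h3 w hw).lt_or_gt with h5 | h5
        · exact adj2_symm _ _ _ _ (adj2_of_lt2 (Or.inl (hlow w hw h5)))
        · have h6 : w.1 = y.1 := eq_of_rk hc w.2 y.2 (h w hw y hy) (by
            have := mem_Icc.1 (rk_mem hd w); omega)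
          have h7 : y.1.2 = none := by rcases rk_spec y.2 with h | h | h <;> first | omega | exact h.1
          refine adj2_of_lt2 (Or.inr ⟨by simp, h6 ▸ h7, ?_⟩)
          rw [h6]
          exact (eq_or_ssubset_of_subset (hup y hy (by omega))).imp id fun h8 => ⟨h8, rfl⟩
    · refine ⟨⟨(u, none), huX, fun h => absurd rfl h⟩, fun hx => h3 _ hx ?_, fun w hw => ?_⟩
      · simp [rk, u3, e]
      · rcases (h3 w hw).lt_or_gt with h5 | h5
        · exact adj2_symm _ _ _ _ (adj2_of_lt2 (Or.inl (hlow w hw h5)))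
        · refine adj2_of_lt2 (Or.inl ⟨rfl, u3 ▸ e, (hup w hw h5).ssubset_of_ne fun e1 => ?_⟩)
          have h6 : u.card = w.1.1.card := congrArg Finset.card e1
          rcases rk_spec w.2 with h | h | h <;> omega
  · push Not at htop
    obtain ⟨y, hy, hmax⟩ := exists_max_image c (fun x : PT X d => x.1.1.card) hne
    obtain ⟨t, ht, htc, hyt⟩ := hP _ y.2.1
    have hle : ∀ w ∈ c, w.1.1.card ≤ d := fun w hw => by
      have := htop w hw
      rcases rk_spec w.2 with h | h | h <;> omega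
    obtain ⟨u, u1, u2, u3⟩ := exists_subsuperset_card_eq (n := d) hyt (hle y hy) (by omega)
    have huX : u ∈ X := face_mono ht u2 (card_pos.1 (by omega))
    refine ⟨⟨(u, none), huX, fun h => absurd rfl h⟩, fun hx => htop _ hx ?_, fun w hw => ?_⟩
    · simp [rk, u3]
    · have h1 : w.1.1 ⊆ u := (adj0_sub_of_card (h w hw y hy).1.1 (hmax w hw)).trans u1
      refine adj2_symm _ _ _ _ (adj2_of_lt2 ?_)
      have h2 := htop w hw
      rcases rk_spec w.2 with h3 | h3 | h3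
      · exact Or.inl ⟨h3.1, h3.2.1, h1.ssubset_of_ne fun e => by rw [e] at h3; omega⟩
      · exact Or.inr ⟨h3.1, rfl, Or.inl (eq_of_subset_of_card_le h1 (u3.trans h3.2.1.symm).le)⟩
      · omega

theorem exists_two {lo hi : Finset V} (h : lo ⊆ hi) (hc : hi.card = lo.card + 2) :
    ∃ T : Finset (Finset V), T.card ≤ 2 ∧
      ∀ u, lo ⊆ u → u ⊆ hi → u.card = lo.card + 1 → u ∈ T := by
  refine ⟨(hi \ lo).image fun v => insert v lo, card_image_le.trans ?_, fun u h1 h2 h3 => ?_⟩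
  · rw [card_sdiff_of_subset h]
    omega
  · obtain ⟨v, hv, e⟩ := exists_eq_insert_iff.2 ⟨h1, h3.symm⟩
    exact mem_image.2 ⟨v, mem_sdiff.2 ⟨h2 (e ▸ mem_insert_self _ _), hv⟩, e⟩

theorem exists_few (hd : 1 ≤ d) (hc : ∀ s ∈ X, s.card ≤ d + 1) {k : ℕ} (hk : 2 ≤ k)
    (hsd : ∀ τ ∈ X, τ.card = d → ∀ i, ∃ T : Finset (Finset V), T.card + 1 ≤ k ∧
      ∀ σ ∈ X, τ ⊂ σ → sd τ σ = i → σ ∈ T)
    (c : Finset (PT X d)) (h : ∀ x ∈ c, ∀ y ∈ c, AA X d sd x y) (hcd : c.card = d) :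
    ∃ T : Finset (WW V), T.card ≤ k ∧ ∀ x, x ∉ c → (∀ y ∈ c, AA X d sd x y) → x.1 ∈ T := by
  obtain ⟨r, h1, h2, h3⟩ := exists_missing hd hc h hcd.le
  have hall : ∀ j, 1 ≤ j → j ≤ d + 1 → j ≠ r → ∃ y ∈ c, rk d y.1 = j := by
    intro j j1 j2 j3
    have h4 : (c.image fun x => rk d x.1) = (Icc 1 (d + 1)).erase r := by
      refine eq_of_subset_of_card_le (fun i hi => mem_erase.2 ⟨?_, image_rk_sub hd c hi⟩) ?_
      · obtain ⟨x, hx, rfl⟩ := mem_image.1 hi
        exact h3 x hx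
      · rw [card_image_rk hc h, card_erase_of_mem (mem_Icc.2 ⟨h1, h2⟩), Nat.card_Icc]
        omega
    have h5 : j ∈ c.image fun x => rk d x.1 := by
      rw [h4]
      exact mem_erase.2 ⟨j3, mem_Icc.2 ⟨j1, j2⟩⟩
    exact mem_image.1 h5
  have hr : ∀ x, x ∉ c → (∀ y ∈ c, AA X d sd x y) → rk d x.1 = r := by
    intro x hx hA
    by_contra hne
    obtain ⟨y, hy, e⟩ := hall _ (mem_Icc.1 (rk_mem hd x)).1 (mem_Icc.1 (rk_mem hd x)).2 hne
    exact hx (Subtype.ext (eq_of_rk hc x.2 y.2 (hA y hy) e.symm) ▸ hy)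
  rcases h2.eq_or_lt with e | e
  · obtain ⟨y, hy, hyr⟩ := hall d hd (by omega) (by omega)
    have hy2 : y.1.2 ≠ none ∧ y.1.1.card = d := by
      rcases rk_spec y.2 with h | h | h
      · omega
      · exact ⟨h.1, h.2.1⟩
      · omega
    obtain ⟨i, hi⟩ := Option.ne_none_iff_exists'.1 hy2.1
    obtain ⟨T, t1, t2⟩ := hsd _ y.2.1 hy2.2 i
    refine ⟨(insert y.1.1 T).image fun s => (s, none),
      card_image_le.trans ((card_insert_le _ _).trans t1), fun x hx hA => ?_⟩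
    rcases lt2_of_rk_lt hc y.2 x.2 (adj2_symm _ _ _ _ (hA y hy)) (by rw [hr x hx hA]; omega) with
      h4 | ⟨-, h4, h5⟩
    · exact absurd h4.1 hy2.1
    · refine mem_image.2 ⟨x.1.1, ?_, Prod.ext rfl h4.symm⟩
      rcases h5 with h5 | h5
      · rw [h5]
        exact mem_insert_self _ _
      · exact mem_insert_of_mem (t2 _ x.2.1 h5.1 (Option.some.inj (h5.2.symm.trans hi)))
  · obtain ⟨z, hz, hzr⟩ := hall (r + 1) (by omega) (by omega) (by omega)
    obtain ⟨lo, l1, l2, l3⟩ := exists_lo h h1 (show r ≤ d by omega)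
    have hlo : lo.card + 1 = r ∧ ∀ x, x ∉ c → (∀ y ∈ c, AA X d sd x y) → lo ⊆ x.1.1 := by
      rcases h1.eq_or_lt with e1 | e1
      · have h4 : lo = ∅ := card_eq_zero.1 (by omega)
        rw [h4]
        exact ⟨by simpa using e1, fun _ _ _ => empty_subset _⟩
      · obtain ⟨w, hw, hwr⟩ := hall (r - 1) (by omega) (by omega) (by omega)
        have h4 : w.1.1.card = r - 1 := by rcases rk_spec w.2 with h | h | h <;> omega
        have h5 : w.1.1 = lo := eq_of_subset_of_card_le (l2 w hw (by omega)) (by omega)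
        refine ⟨by rw [← h5]; omega, fun x hx hA => ?_⟩
        rw [← h5]
        exact lt2_sub (lt2_of_rk_lt hc w.2 x.2 (adj2_symm _ _ _ _ (hA w hw)) (by
          rw [hr x hx hA]; omega))
    have hxz : ∀ x, x ∉ c → (∀ y ∈ c, AA X d sd x y) → lt2 d sd x.1 z.1 ∧ x.1.1.card = r :=
      fun x hx hA => ⟨lt2_of_rk_lt hc x.2 z.2 (hA z hz) (by rw [hr x hx hA]; omega), by
        have := hr x hx hA
        rcases rk_spec x.2 with h | h | h <;> omega⟩
    by_cases hzc : z.1.1.card = r + 1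
    · obtain ⟨T, t1, t2⟩ := exists_two (l3 z hz (by omega)) (by omega)
      refine ⟨T.image fun u => (u, if r < d then none else some (sd u z.1.1)),
        card_image_le.trans (t1.trans hk), fun x hx hA => ?_⟩
      obtain ⟨h4, h5⟩ := hxz x hx hA
      refine mem_image.2 ⟨x.1.1, t2 _ (hlo.2 x hx hA) (lt2_sub h4) (by omega), Prod.ext rfl ?_⟩
      rcases h4 with h4 | ⟨h4, -, h6 | h6⟩
      · rw [if_pos (by omega)]
        exact h4.1.symm
      · rw [h6] at h5
        omega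
      · rw [if_neg (by have := x.2.2 h4; omega)]
        exact h6.2.symm
    · refine ⟨(univ : Finset Bool).image fun i => (z.1.1, some i),
        card_image_le.trans (by simpa using hk), fun x hx hA => ?_⟩
      obtain ⟨h4, h5⟩ := hxz x hx hA
      have h6 := hc _ z.2.1
      have h7 : z.1.1.card = d ∧ r = d := by rcases rk_spec z.2 with h | h | h <;> omega
      rcases h4 with h4 | ⟨h4, -, -⟩
      · omega
      · obtain ⟨i, hi⟩ := Option.ne_none_iff_exists'.1 h4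
        refine mem_image.2 ⟨i, mem_univ _, Prod.ext ?_ hi.symm⟩
        exact (eq_of_subset_of_card_le (lt2_sub (hxz x hx hA).1) (by omega)).symm

theorem card_le_of_pure (hP : IsPure X d) : ∀ s ∈ X, s.card ≤ d + 1 := fun s hs => by
  obtain ⟨t, _, h1, h2⟩ := hP s hs
  exact h1 ▸ card_le_card h2

theorem exists_side [Fintype V] (hd : 1 ≤ d) (hP : IsPure X d) {k : ℕ} (hk : 3 ≤ k)
    (h : ridgeDegree X d ≤ k + 1) : ∃ sd : Finset V → Finset V → Bool,
      ∀ τ ∈ X, τ.card = d → ∀ i, ∃ T : Finset (Finset V), T.card + 1 ≤ k ∧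
        ∀ σ ∈ X, τ ⊂ σ → sd τ σ = i → σ ∈ T := by
  let N : Finset V → Finset (Finset V) := fun τ =>
    ((univ : Finset (Face X d)).filter fun t => τ ⊆ t.1).image Subtype.val
  have key : ∀ τ, ∃ A ⊆ N τ, A.card = min 2 (N τ).card := fun τ =>
    exists_subset_card_eq (min_le_right _ _)
  choose A hA using key
  refine ⟨fun τ σ => decide (σ ∈ A τ), fun τ hτ hc i => ?_⟩
  have h1 : (N τ).card ≤ k + 1 := card_image_le.trans ((ridge_le hd).1 h τ hτ hc)
  have h2 := (hA τ).2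
  cases i
  · refine ⟨N τ \ A τ, ?_, fun σ hσ hτσ e => mem_sdiff.2 ⟨?_, by simpa using e⟩⟩
    · rw [card_sdiff_of_subset (hA τ).1]
      omega
    · have h3 := card_lt_card hτσ
      have h4 := card_le_of_pure hP σ hσ
      exact mem_image.2 ⟨⟨σ, hσ, by omega⟩, mem_filter.2 ⟨mem_univ _, hτσ.subset⟩, rfl⟩
  · exact ⟨A τ, by omega, fun σ _ _ e => by simpa using e⟩

/-- The properties which are carried through the iteration. -/
def Good (d L M k n : ℕ) (flag : Prop) : Prop :=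
  ∃ (V : Type) (_ : Fintype V) (X : AbstractSimplicialComplex V), n ≤ Fintype.card V ∧
    IsPure X d ∧ Bdd (KX X) L ∧ Cof X d M ∧ ridgeDegree X d ≤ k ∧
    (flag → (skel X).Colorable (d + 1) ∧
      ∀ s : Finset V, s.Nonempty → (skel X).IsClique s → s ∈ X)

theorem Good.step {d L M k n : ℕ} (hd : 1 ≤ d) (hk : 3 ≤ k) (hn : 1 ≤ n)
    (h : Good d L M (k + 1) n False) : Good d (2 ^ L * 3) (cst4 L M) k n True := by
  obtain ⟨V, _, X, h1, hP, hL, hX, hR, -⟩ := h
  have : Nonempty V := Fintype.card_pos_iff.1 (by omega)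
  obtain ⟨sd, hsd⟩ := exists_side hd hP hk hR
  have hc := card_le_of_pure hP
  let _ : Fintype (PT X d) := Fintype.ofFinite _
  have hr : ∀ x, AA X d sd x x := fun x => adj2_refl d sd x.1
  have e1 : ∀ s, s ∈ Cl (val X d) (adj2 d sd) ↔
      ∃ t ∈ KX (flagCx (AA X d sd) hr), t.map (Function.Embedding.subtype _) = s := by
    intro s
    constructor
    · intro hs
      obtain ⟨t, rfl⟩ := exists_map_of_range (Function.Embedding.subtype (val X d)) (s := s)
        fun x hx => ⟨⟨x, hs.1 x hx⟩, rfl⟩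
      refine ⟨t, ?_, rfl⟩
      rcases t.eq_empty_or_nonempty with h | h
      · exact Or.inr h
      · exact Or.inl ⟨h, fun x hx y hy => hs.2 _ (mem_map_of_mem _ hx) _ (mem_map_of_mem _ hy)⟩
    · rintro ⟨t, ht | rfl, rfl⟩
      · refine ⟨fun x hx => ?_, fun x hx y hy => ?_⟩
        · obtain ⟨x, _, rfl⟩ := mem_map.1 hx
          exact x.2
        · obtain ⟨x', hx', rfl⟩ := mem_map.1 hx
          obtain ⟨y', hy', rfl⟩ := mem_map.1 hy
          exact ht.2 x' hx' y' hy'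
      · exact ⟨by simp, by simp⟩
  refine ⟨PT X d, inferInstance, flagCx (AA X d sd) hr, h1.trans ?_, ?_, ?_, ?_, ?_, fun _ =>
    ⟨?_, flag_clique⟩⟩
  · refine Fintype.card_le_of_injective
      (fun v => ⟨({v}, none), X.singleton_mem v, fun h => absurd rfl h⟩) fun v w e => ?_
    exact singleton_injective (congrArg (fun x : PT X d => x.1.1) e)
  · refine flag_pure (fun x y => adj2_symm d sd x.1 y.1) (fun c h => ?_) (exists_ext hd hP hc)
    rw [← card_image_rk hc h]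
    exact (card_le_card (image_rk_sub hd c)).trans (by simp)
  · intro z
    obtain ⟨T, t1, t2⟩ := bdd_Cl (d := d) hL z.1
    refine ⟨T.preimage Subtype.val Subtype.val_injective.injOn, le_trans ?_ t1, fun s hs hz x hx =>
      mem_preimage.2 (t2 (s.map (Function.Embedding.subtype _)) ?_ (mem_map_of_mem _ hz)
        (mem_map_of_mem _ hx))⟩
    · exact card_le_card_of_injOn Subtype.val (fun x hx => mem_preimage.1 hx)
        Subtype.val_injective.injOn
    · have h2 := (e1 _).2 ⟨s, hs, rfl⟩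
      exact ⟨h2.1, fun x hx y hy => (h2.2 x hx y hy).1.1⟩
  · rw [cof_iff] at hX ⊢
    exact fun q hq hqd => (exp_map _ e1 _ _).1 (exp_split hc hL hq (hX q hq hqd))
  · refine flag_ridge hd fun c h hcd => ?_
    obtain ⟨T, t1, t2⟩ := exists_few hd hc (by omega) hsd c h hcd
    refine ⟨T.preimage Subtype.val Subtype.val_injective.injOn, le_trans ?_ t1, fun x hx hA =>
      mem_preimage.2 (t2 x hx hA)⟩
    exact card_le_card_of_injOn Subtype.val (fun x hx => mem_preimage.1 hx)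
      Subtype.val_injective.injOn
  · refine ⟨SimpleGraph.Coloring.mk (fun x => ⟨rk d x.1 - 1, ?_⟩) fun {x y} hxy e => ?_⟩
    · have := mem_Icc.1 (rk_mem hd x)
      omega
    · have h2 := mem_Icc.1 (rk_mem hd x)
      have h3 := mem_Icc.1 (rk_mem hd y)
      have h4 : rk d x.1 - 1 = rk d y.1 - 1 := congrArg Fin.val e
      exact hxy.1 (Subtype.ext (eq_of_rk hc x.2 y.2 (flag_adj (hr := hr) hxy) (by omega)))

theorem Good.weak {d L M k n : ℕ} (h : Good d L M k n True) : Good d L M k n False := by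
  obtain ⟨V, hV, X, h1, h2, h3, h4, h5, -⟩ := h
  exact ⟨V, hV, X, h1, h2, h3, h4, h5, False.elim⟩

theorem good_three {d : ℕ} (hd : 1 ≤ d) (j : ℕ) : ∀ L M : ℕ, ∃ L' M' : ℕ, ∀ n, 1 ≤ n →
    Good d L M (3 + j + 1) n False → Good d L' M' 3 n True := by
  induction j with
  | zero => exact fun L M => ⟨_, _, fun n hn h => h.step hd le_rfl hn⟩
  | succ j ih =>
    intro L M
    obtain ⟨L', M', h⟩ := ih (2 ^ L * 3) (cst4 L M)
    exact ⟨L', M', fun n hn h1 => h n hn (Good.step hd (by omega) hn h1).weak⟩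

theorem ridge_le_degree [Fintype V] (hd : 1 ≤ d) : ridgeDegree X d ≤ degree X d := by
  rw [ridge_le hd]
  intro s hs _
  obtain ⟨v, hv⟩ := face_nonempty hs
  have h0 : ((univ : Finset (Face X d)).filter fun t => v ∈ t.1).card ≤ degree X d := by
    unfold degree
    exact le_sup (f := fun v : V => ((univ : Finset (Face X d)).filter fun t => v ∈ t.1).card)
      (mem_univ v)
  refine le_trans (card_le_card fun t ht => ?_) h0
  rw [mem_filter] at ht ⊢
  exact ⟨ht.1, ht.2 hv⟩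

theorem good_exists {d : ℕ} (hd : 1 ≤ d) : ∃ L M : ℕ, ∀ n, 1 ≤ n → Good d L M 3 n True := by
  obtain ⟨p0, h0⟩ := cayley_cof' d (2 * d + 1) hd le_rfl
  obtain ⟨p, hp, hprime⟩ := Nat.exists_infinite_primes p0
  have : Fact p.Prime := ⟨hprime⟩
  obtain ⟨L, M, h1⟩ := h0 p hp
  obtain ⟨L', M', h2⟩ := good_three hd (2 ^ L) L M
  refine ⟨L', M', fun n hn => h2 n hn ?_⟩
  have : Finite (Matrix.SpecialLinearGroup (Fin (2 * d + 1)) (Rg p (n + 3))) :=
    inferInstanceAs (Finite {A : Matrix _ _ (Rg p (n + 3)) // A.det = 1})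
  let _ : Fintype (Matrix.SpecialLinearGroup (Fin (2 * d + 1)) (Rg p (n + 3))) :=
    Fintype.ofFinite _
  obtain ⟨H, X, -, -, h3, h4, h5⟩ := h1 (n + 3) (by omega) _ (MulEquiv.refl _)
  refine ⟨_, inferInstance, X, ?_, h3, h4, h5,
    (ridge_le_degree hd).trans ((degree_of_bdd h4 d).trans (by omega)), False.elim⟩
  have h6 := le_card_SL (ι := Fin (2 * d + 1)) (p := p) (by rw [Fintype.card_fin]; omega) (n + 3)
  rw [Nat.card_eq_fintype_card] at h6
  omega

/-- Clique complexes with at most three top faces at every face of codimension one. -/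
theorem three (d : ℕ) (hd : 1 ≤ d) :
    ∃ (D : ℕ) (ε : ℝ), 0 < ε ∧ ∃ (V : ℕ → Type) (_ : ∀ m, Fintype (V m))
      (X : ∀ m, AbstractSimplicialComplex (V m)),
      Filter.Tendsto (fun m => Fintype.card (V m)) Filter.atTop Filter.atTop ∧
      ∀ m, (IsPure (X m) d ∧ (skel (X m)).Connected ∧ degree (X m) d ≤ D ∧
        IsCoboundaryExpander (X m) d ε) ∧ ridgeDegree (X m) d ≤ 3 ∧
        (skel (X m)).Colorable (d + 1) ∧
        ∀ s : Finset (V m), s.Nonempty → (skel (X m)).IsClique s → s ∈ X m := by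
  obtain ⟨L, M, h⟩ := good_exists hd
  choose V hV X h1 h2 h3 h4 h5 h6 using fun m => h (m + 1) (by omega)
  refine ⟨2 ^ L, 1 / ((M + 1) * ((2 ^ L : ℕ) + 1) * 2 ^ (d + 1)), by positivity, V, hV, X,
    Filter.tendsto_atTop_mono (fun m => (Nat.le_succ m).trans (h1 m)) Filter.tendsto_id,
    fun m => ⟨⟨h2 m, ?_, degree_of_bdd (h3 m) d,
      expander_of_cof (h2 m) (degree_of_bdd (h3 m) d) (h4 m)⟩, h5 m, h6 m trivial⟩⟩
  have : Nonempty (V m) := Fintype.card_pos_iff.1 (by have := h1 m; omega)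
  exact connected_of_cof hd (h4 m)

/-- The question as posed. -/
theorem question (d : ℕ) (hd : 1 ≤ d) :
    ∃ (D : ℕ) (ε : ℝ), 0 < ε ∧ ∃ (V : ℕ → Type) (_ : ∀ m, Fintype (V m))
      (X : ∀ m, AbstractSimplicialComplex (V m)),
      Filter.Tendsto (fun m => Fintype.card (V m)) Filter.atTop Filter.atTop ∧
      ∀ m, IsPure (X m) d ∧ (skel (X m)).Connected ∧ degree (X m) d ≤ D ∧
        IsCoboundaryExpander (X m) d ε := by
  obtain ⟨D, ε, hε, V, hV, X, h1, h2⟩ := three d hd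
  exact ⟨D, ε, hε, V, hV, X, h1, fun m => (h2 m).1⟩

/-- Cayley complexes. -/
theorem cayley (d n : ℕ) (hd : 1 ≤ d) (hn : 2 * d + 1 ≤ n) : ∃ p0 : ℕ,
    ∀ (p : ℕ) [Fact p.Prime], p0 ≤ p → ∃ (D : ℕ) (ε : ℝ), 0 < ε ∧ ∀ m : ℕ, 3 ≤ m →
      ∃ (G : Type) (_ : Group G) (_ : Fintype G), Nonempty (G ≃* Matrix.SpecialLinearGroup (Fin n)
        (AdjoinRoot ((Polynomial.X : Polynomial (ZMod p)) ^ m))) ∧
      m ≤ Fintype.card G + 1 ∧
      ∃ (X : AbstractSimplicialComplex G) (H : Finset (Subgroup G)), H.card ≤ n ∧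
        (∀ s : Finset G, s ∈ X ↔ s.Nonempty ∧ s.card ≤ d + 1 ∧
          ∃ K ∈ H, ∃ g : G, ∀ x ∈ s, g⁻¹ * x ∈ K) ∧
        (∀ (g : G) (s : Finset G), s.map (Equiv.mulLeft g).toEmbedding ∈ X ↔ s ∈ X) ∧
        IsPure X d ∧ (skel X).Connected ∧ degree X d ≤ D ∧ IsCoboundaryExpander X d ε := by
  obtain ⟨p0, h0⟩ := cayley_cof' d n hd hn
  refine ⟨p0, fun p _ hp => ?_⟩
  obtain ⟨L, M, h⟩ := h0 p hp
  refine ⟨2 ^ L, 1 / ((M + 1) * ((2 ^ L : ℕ) + 1) * 2 ^ (d + 1)), by positivity,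
    fun m hm => ?_⟩
  have : Finite (Matrix.SpecialLinearGroup (Fin n) (Rg p m)) :=
    inferInstanceAs (Finite {A : Matrix _ _ (Rg p m) // A.det = 1})
  let _ : Fintype (Matrix.SpecialLinearGroup (Fin n) (Rg p m)) := Fintype.ofFinite _
  refine ⟨Matrix.SpecialLinearGroup (Fin n) (Rg p m), inferInstance, inferInstance,
    ⟨MulEquiv.refl _⟩, ?_, ?_⟩
  · rw [← Nat.card_eq_fintype_card]
    exact le_card_SL (ι := Fin n) (by rw [Fintype.card_fin]; omega) m
  · obtain ⟨H, X, h1, h2, h3, h4, h5⟩ := h m hm _ (MulEquiv.refl _)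
    refine ⟨X, H, h1, h2, fun g s => ?_, h3, connected_of_cof hd h5, degree_of_bdd h4 d,
      expander_of_cof h3 (degree_of_bdd h4 d) h5⟩
    rw [h2, h2, map_nonempty, card_map]
    refine and_congr_right fun _ => and_congr_right fun _ => exists_congr fun K =>
      and_congr_right fun _ => ⟨?_, ?_⟩
    · rintro ⟨a, ha⟩
      refine ⟨g⁻¹ * a, fun x hx => ?_⟩
      have h6 := ha _ (mem_map_of_mem _ hx)
      rw [mul_inv_rev, inv_inv, mul_assoc]
      exact h6
    · rintro ⟨a, ha⟩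
      refine ⟨g * a, fun x hx => ?_⟩
      obtain ⟨y, hy, rfl⟩ := mem_map.1 hx
      have h6 : (g * a)⁻¹ * (g * y) = a⁻¹ * y := by group
      exact h6 ▸ ha y hy

end Vale.Agent.N067
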